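import Vale.Agent.P214.TAYL.Main

/-!
# P214, WINDOWS (sequence part): interpolation of derivatives

`‖D^j f(x)‖ ≤ C (A ρ^{-j} + B ρ^{s-j})` if `‖f‖ ≤ A` and `‖D^s f‖ ≤ B` on the ball of radius `ρ`
about `x`.  From TAYL: approximation by polynomials and Markov's inequality.
-/

open Set Filter Topology Metric
open scoped ContDiff

namespace Vale.Agent.P214.WSEQ

open Vale.Agent.P214.TAYL

universe u

variable {E : Type u} [NormedAddCommGroup E] [NormedSpace ℝ E]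

/-- first derivative -/
theorem interp_one (k : ℕ) : ∃ K : ℝ, 0 < K ∧ ∀ {F : Type u} [NormedAddCommGroup F]
    [NormedSpace ℝ F] [CompleteSpace F] (f : E → F) (x : E) (ρ A B : ℝ), 0 < ρ → ContDiff ℝ ∞ f →
    (∀ y, ‖y - x‖ ≤ ρ → ‖f y‖ ≤ A) → (∀ y, ‖y - x‖ ≤ ρ → ‖iteratedFDeriv ℝ (k + 2) f y‖ ≤ B) →
    ‖fderiv ℝ f x‖ ≤ K * (A * ρ⁻¹ + B * ρ ^ (k + 1)) := by
  obtain ⟨K₁, hK₁, h1⟩ := exists_hasFDerivAt (E := E) k
  obtain ⟨K₂, hK₂, h2⟩ := markov (E := E) (k + 1)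
  refine ⟨K₁ + K₂, by positivity, ?_⟩
  intro F _ _ _ f x ρ A B hρ hf hA hB
  have hB0 : 0 ≤ B := (norm_nonneg _).trans (hB x (by simpa using hρ.le))
  have hA0 : 0 ≤ A := (norm_nonneg _).trans (hA x (by simpa using hρ.le))
  have happ : ∀ r, 0 < r → r ≤ ρ → ∃ P : E → F, IsPoly (k + 1) P ∧
      ∀ y, ‖y - x‖ ≤ r → ‖f y - P y‖ ≤ B * r ^ (k + 1 + 1) := by
    intro r hr hrρ
    refine exists_poly_of_contDiffAt (k + 1) hr.le (fun y _ => ?_) (fun y hy => hB y (hy.trans hrρ))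
    exact hf.contDiffAt.of_le (by exact_mod_cast le_top)
  obtain ⟨L, hL, h3⟩ := h1 f B ρ x hρ hB0 happ
  obtain ⟨P, hP, h4⟩ := happ ρ hρ le_rfl
  have h5 := h3 ρ P hρ le_rfl hP h4
  have h6 := h2 P hP x ρ (A + B * ρ ^ (k + 2)) hρ (fun z hz => by
    have e1 := hA z hz
    have e2 := h4 z hz
    calc ‖P z‖ = ‖f z - (f z - P z)‖ := by rw [sub_sub_cancel]
      _ ≤ ‖f z‖ + ‖f z - P z‖ := norm_sub_le _ _
      _ ≤ _ := by gcongr)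
  have h7 : fderiv ℝ f x = L := hL.fderiv
  rw [h7]
  have h8 : K₂ * (A + B * ρ ^ (k + 2)) / ρ = K₂ * (A * ρ⁻¹ + B * ρ ^ (k + 1)) := by
    field_simp
    ring
  calc ‖L‖ = ‖(L - fderiv ℝ P x) + fderiv ℝ P x‖ := by rw [sub_add_cancel]
    _ ≤ ‖L - fderiv ℝ P x‖ + ‖fderiv ℝ P x‖ := norm_add_le _ _
    _ ≤ K₁ * B * ρ ^ (k + 1) + K₂ * (A * ρ⁻¹ + B * ρ ^ (k + 1)) := by
        rw [h8] at h6; gcongr
    _ ≤ (K₁ + K₂) * (A * ρ⁻¹ + B * ρ ^ (k + 1)) := by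
        have : 0 ≤ K₁ * (A * ρ⁻¹) := by positivity
        nlinarith

/-- all derivatives of order `< s` -/
theorem interp (s : ℕ) : ∀ j, j < s → ∃ K : ℝ, 0 < K ∧ ∀ {F : Type u} [NormedAddCommGroup F]
    [NormedSpace ℝ F] [CompleteSpace F] (f : E → F) (x : E) (ρ A B : ℝ), 0 < ρ → ContDiff ℝ ∞ f →
    (∀ y, ‖y - x‖ ≤ ρ → ‖f y‖ ≤ A) → (∀ y, ‖y - x‖ ≤ ρ → ‖iteratedFDeriv ℝ s f y‖ ≤ B) →
    ‖iteratedFDeriv ℝ j f x‖ ≤ K * (A * ρ⁻¹ ^ j + B * ρ ^ (s - j)) := by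
  intro j
  induction j generalizing s with
  | zero =>
    intro _
    refine ⟨1, one_pos, ?_⟩
    intro F _ _ _ f x ρ A B hρ hf hA hB
    have hB0 : 0 ≤ B := (norm_nonneg _).trans (hB x (by simpa using hρ.le))
    rw [norm_iteratedFDeriv_zero, pow_zero, mul_one, one_mul]
    have : 0 ≤ B * ρ ^ (s - 0) := by positivity
    have h1 := hA x (by simpa using hρ.le)
    linarith
  | succ j ih =>
    intro hj
    obtain ⟨k, rfl⟩ : ∃ k, s = k + 2 := ⟨s - 2, by omega⟩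
    obtain ⟨K₁, hK₁, h1⟩ := interp_one (E := E) k
    obtain ⟨K₂, hK₂, h2⟩ := ih (k + 1) (by omega)
    refine ⟨K₂ * (K₁ * 2 ^ (j + 2) + 1), by positivity, ?_⟩
    intro F _ _ _ f x ρ A B hρ hf hA hB
    have hB0 : 0 ≤ B := (norm_nonneg _).trans (hB x (by simpa using hρ.le))
    have hA0 : 0 ≤ A := (norm_nonneg _).trans (hA x (by simpa using hρ.le))
    have hf' : ContDiff ℝ ∞ (fderiv ℝ f) := hf.fderiv_right (m := ∞) (by norm_cast)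
    -- the first derivative on the half ball
    have h3 : ∀ y, ‖y - x‖ ≤ ρ / 2 → ‖fderiv ℝ f y‖ ≤ K₁ * (A * (ρ / 2)⁻¹ + B * (ρ / 2) ^ (k + 1)) := by
      intro y hy
      have hsub : ∀ z, ‖z - y‖ ≤ ρ / 2 → ‖z - x‖ ≤ ρ := by
        intro z hz
        calc ‖z - x‖ = ‖(z - y) + (y - x)‖ := by rw [sub_add_sub_cancel]
          _ ≤ ‖z - y‖ + ‖y - x‖ := norm_add_le _ _
          _ ≤ ρ / 2 + ρ / 2 := by gcongr
          _ = ρ := by ring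
      exact h1 f y (ρ / 2) A B (by positivity) hf (fun z hz => hA z (hsub z hz))
        (fun z hz => hB z (hsub z hz))
    have h4 := h2 (fderiv ℝ f) x (ρ / 2) (K₁ * (A * (ρ / 2)⁻¹ + B * (ρ / 2) ^ (k + 1))) B
      (by positivity) hf' h3 (fun z hz => by
        rw [norm_iteratedFDeriv_fderiv]
        exact hB z (hz.trans (by linarith)))
    rw [norm_iteratedFDeriv_fderiv] at h4
    refine h4.trans ?_
    have e1 : k + 2 - (j + 1) = k + 1 - j := by omega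
    rw [e1]
    refine (mul_le_mul_of_nonneg_left ?_ hK₂.le).trans_eq (mul_assoc _ _ _).symm
    have e2 : ρ ^ (k + 1) * ρ⁻¹ ^ j = ρ ^ (k + 1 - j) := by
      have : k + 1 = (k + 1 - j) + j := by omega
      rw [this, pow_add, mul_assoc, ← mul_pow, mul_inv_cancel₀ hρ.ne', one_pow, mul_one]
      congr 1; omega
    have e3 : (ρ / 2) ^ (k + 1) ≤ ρ ^ (k + 1) := by gcongr; linarith
    have e4 : (ρ / 2)⁻¹ = 2 * ρ⁻¹ := by rw [inv_div]; ring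
    have e5 : (ρ / 2) ^ (k + 1 - j) ≤ ρ ^ (k + 1 - j) := by gcongr; linarith
    rw [e4]
    have e6 : K₁ * (A * (2 * ρ⁻¹) + B * (ρ / 2) ^ (k + 1)) * (2 * ρ⁻¹) ^ j
        ≤ K₁ * 2 ^ (j + 2) * (A * ρ⁻¹ ^ (j + 1) + B * ρ ^ (k + 1 - j)) := by
      calc K₁ * (A * (2 * ρ⁻¹) + B * (ρ / 2) ^ (k + 1)) * (2 * ρ⁻¹) ^ j
          ≤ K₁ * (A * (2 * ρ⁻¹) + B * ρ ^ (k + 1)) * (2 * ρ⁻¹) ^ j := by gcongr
        _ = K₁ * 2 ^ (j + 1) * (A * ρ⁻¹ ^ (j + 1)) + K₁ * 2 ^ j * (B * (ρ ^ (k + 1) * ρ⁻¹ ^ j)) := by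
            rw [mul_pow]; ring
        _ = K₁ * 2 ^ (j + 1) * (A * ρ⁻¹ ^ (j + 1)) + K₁ * 2 ^ j * (B * ρ ^ (k + 1 - j)) := by
            rw [e2]
        _ ≤ K₁ * 2 ^ (j + 2) * (A * ρ⁻¹ ^ (j + 1)) + K₁ * 2 ^ (j + 2) * (B * ρ ^ (k + 1 - j)) := by
            gcongr
            · norm_num
            · linarith
            · norm_num
            · linarith
        _ = _ := by ring
    have e7 : 0 ≤ A * ρ⁻¹ ^ (j + 1) := by positivity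
    calc K₁ * (A * (2 * ρ⁻¹) + B * (ρ / 2) ^ (k + 1)) * (2 * ρ⁻¹) ^ j + B * (ρ / 2) ^ (k + 1 - j)
        ≤ K₁ * 2 ^ (j + 2) * (A * ρ⁻¹ ^ (j + 1) + B * ρ ^ (k + 1 - j)) + B * ρ ^ (k + 1 - j) := by
          gcongr
      _ ≤ (K₁ * 2 ^ (j + 2) + 1) * (A * ρ⁻¹ ^ (j + 1) + B * ρ ^ (k + 1 - j)) := by
          rw [add_mul, one_mul]; gcongr; linarith

end Vale.Agent.P214.WSEQ
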