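import Vale.Agent.P214.STR.Props
import Vale.Agent.P214.W5.Out
import Vale.Agent.P214.ALL.Transfer

/-!
# P214, block WINDOWS (helper241): exact statements of the windows sequence

At a good point (dilated to radius `3/8`, structure `Loc`) STEP-R is iterated: either the measure is
carried by one smooth graph over a ball, or there is an infinite sequence of references with radii
tending to zero (structure `WSeq`).  Window `k` of the abstract chain is the set of scales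
`t ∈ [r (k+1) (1 - 10 θ (k+1)), r k (1 - 10 θ k)]` with the reference `u (k+1)`.
-/

open Set Filter Topology MeasureTheory Metric
open scoped RealInnerProductSpace ENNReal ContDiff

namespace Vale.Agent.P214.WSEQ

open WIN STR

noncomputable section

variable {m n : ℕ} {E : Type*} [NormedAddCommGroup E] [InnerProductSpace ℝ E]
  [FiniteDimensional ℝ E] [MeasurableSpace E] [BorelSpace E]

/-- the local situation at a good point, dilated to radius `3/8`: the point is `0`, `K` is the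
(compact) set of points of density `≥ Q` near `0`, `δ` its density defect. -/
structure Loc (m Q : ℕ) (T : Submodule ℝ E) (ν : Measure E) (P : E → E →L[ℝ] E) (K : Set E)
    (δ : ℝ → ℝ) (τ : ℝ) : Prop where
  int : ∀ r, 0 < r → r ≤ 3 / 8 → Skel.IntCyl m Q T 0 r (τ * r) τ ν P
  exc : ∀ r, 0 < r → r ≤ 3 / 8 → Skel.exc T ν P 0 r ≤ τ * r ^ m
  cpt : IsCompact K
  high : ∀ z ∈ K, HighD m Q T ν (3 / 16) z
  zero_mem : (0:E) ∈ K
  zero_supp : (0:E) ∈ ν.support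
  δ_nn : ∀ t, 0 < t → t ≤ 3 / 16 → 0 ≤ δ t
  δ_le : ∀ t, 0 < t → t ≤ 3 / 16 → δ t ≤ τ
  dens : ∀ t, 0 < t → t ≤ 3 / 16 →
    μH[m] (((T : Set E) ∩ ball 0 t) \ (T.starProjection '' K)) ≤ ENNReal.ofReal (δ t * t ^ m)
  δ_lim : Tendsto δ (𝓝[>] 0) (𝓝 0)
  lim : ∀ η, 0 < η → ∃ r₀ > 0, ∀ r, 0 < r → r ≤ r₀ →
    Skel.IntCyl m Q T 0 r (η * r) η ν P ∧ Skel.exc T ν P 0 r ≤ η * r ^ m

/-- exponents: `c₀` from STEP, `c` the gain of one step, `c₅` the maximal length of a window, `c'`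
the gain at the points of `K`, `e` the loss in the size of the increments, `c₁` the exponent of the
collars in STEP, `D` the power of the decay -/
structure Exps where
  (c₀ c₁ c c' c₅ e : ℝ)
  D : ℕ

/-- relations between the exponents -/
structure Exps.OK (X : Exps) (m : ℕ) : Prop where
  c_pos : 0 < X.c
  c_le : X.c ≤ 1 / 100
  c_small : (5 * m + 17) * (X.c₅ + 10 * X.c) + 12 * X.c + X.e ≤ 1 / 2
  c₀_le : X.c₀ ≤ 1 / 8
  c_c₀ : 10 * X.c ≤ X.c₀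
  c'_eq : X.c' = 9 / 10 * X.c
  c₅_pos : 0 < X.c₅
  c₅_le : X.c₅ ≤ X.c / 100
  D_c₅ : X.D * X.c₅ = 2 * X.c
  m_c₅ : m * X.c₅ ≤ X.c₀ / 2
  pow : 8 * sW m * X.c₅ ≤ X.c
  e_pos : 0 < X.e
  e_le : X.e ≤ X.c / 100
  c₁_pos : 0 < X.c₁
  c₁_le : X.c₁ ≤ X.c₀ ^ 2
  e_c₁ : X.e = 2 * (X.c₁ / X.c₀)

/-- the collar belonging to the height `h` -/
def th (h : ℝ) : ℝ := (Real.log h⁻¹)⁻¹ ^ 7

/-- One window: from the reference `u` at the radius `r` (height `h`) to the reference `u'`, which is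
active below `r`, and the next radius `r'`.  `ut` is the output of STEP-R, `u' = ut - ut(0)` near
the origin. -/
structure Nxt (m n Q : ℕ) (T : Submodule ℝ E) (F : Frame m n T) (ν : Measure E)
    (P : E → E →L[ℝ] E) (K : Set E) (δ : ℝ → ℝ) (X : Exps) (C C₅ ε : ℝ)
    (u : Fin n → REF.E m → ℝ) (r h : ℝ) (ut u' : Fin n → REF.E m → ℝ) (r' : ℝ) : Prop where
  /-- the new reference -/
  refe : Refe ε (r * (1 - 5 * th h)) u'
  zero : ∀ a, u' a 0 = 0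
  smooth_t : ∀ a, ContDiff ℝ ∞ (ut a)
  tr : ∀ a x, ‖x‖ ≤ 9 / 32 → u' a x = ut a x - ut a 0
  tr_le : ∀ a, |ut a 0| ≤ r * h ^ (1 / 2 + X.c')
  size : ∀ a, ∀ k ≤ sW m, ∀ x, ‖iteratedFDeriv ℝ k (fun x => u' a x - u a x) x‖
    ≤ r * r⁻¹ ^ k * h ^ (1 / 2 - X.e)
  /-- weak smallness of the untranslated height -/
  weak : ∀ (φ : Fin n → REF.E m → ℝ) (M : ℝ), TstR (sW m) r (r * (1 - 5 * th h)) M φ →
    |∫ y, ∑ a, φ a (F.xc y) * F.ht ut a y ∂ν| ≤ r ^ (m + 1) * h ^ (1 - X.e) * M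
  /-- mass against the area of the old reference -/
  mass : ∀ (ψ : REF.E m → ℝ) (M : ℝ), Continuous ψ →
    (∀ x, r * (1 - 5 * th h) ≤ ‖x‖ → ψ x = 0) → (∀ x, |ψ x| ≤ M) →
    |∫ y, ψ (F.xc y) ∂ν - Q * ∫ x, ψ x * √(REF.gm u x).det ∂μH[m]|
      ≤ r ^ m * h ^ (1 / 2 - X.e) * M
  /-- the next radius -/
  r_ge : r * h ^ X.c₅ ≤ r'
  r_le : r' ≤ r * (1 - 12 * th h)
  h_next : hN m T (F.lift u') ν r' ≤ h ^ (1 + X.c)
  h_gt : ∀ t, r' < t → t ≤ r * (1 - 12 * th h) → h ^ (1 + X.c) < hN m T (F.lift u') ν t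
  /-- heights -/
  top : ∀ t, r * h ^ X.c₅ ≤ t → t ≤ r * (1 - 8 * th h) →
    hN m T (F.lift u') ν t ≤ C * h ^ (1 - X.e)
  dec : ∀ t, r * h ^ X.c₅ ≤ t → 2 * t ≤ r * (1 - 8 * th h) →
    hN m T (F.lift u') ν t ≤ C * (δ t + h ^ (X.c₀ / 2)) * hN m T (F.lift u') ν (2 * t)
      + C * (r / t) ^ 2 * h ^ (1 + 2 * X.c')
  /-- bad set and values at the points of `K`; input of `W5` -/
  bad : ∃ Bad : Set E, W5.BadS m T ν P Bad (h ^ X.c₀) ε r (r * (1 - 8 * th h)) ∧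
    W5.Hgt m T ν K Bad (KMS.rel T (F.lift u')) C₅ (2 * r * h ^ (1 / 2 + X.c'))
      (r * (1 - 8 * th h))

/-- **the windows sequence** -/
structure WSeq (m n Q : ℕ) (T : Submodule ℝ E) (F : Frame m n T) (ν : Measure E)
    (P : E → E →L[ℝ] E) (K : Set E) (δ : ℝ → ℝ) (X : Exps) (C C₅ ε : ℝ) where
  /-- references: `u (k+1)` is the one of window `k` -/
  u : ℕ → Fin n → REF.E m → ℝ
  /-- outputs of STEP-R -/
  ut : ℕ → Fin n → REF.E m → ℝ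
  /-- radii -/
  r : ℕ → ℝ
  /-- heights -/
  h : ℕ → ℝ
  u_zero : u 0 = 0
  r_zero : r 0 = 3 / 16
  r_pos : ∀ j, 0 < r j
  h_eq : ∀ j, h j = hN m T (F.lift (u j)) ν (r j)
  h_pos : ∀ j, 0 < h j
  h_le : ∀ j, h j ≤ ε
  /-- the heights are small against all fixed powers of the radii which occur -/
  h_pow : ∀ j, h j ≤ r j ^ (8 * sW m)
  th_le : ∀ j, th (h j) ≤ 1 / 120
  refe : ∀ j, Refe ε (r j) (u j)
  nxt : ∀ j, Nxt m n Q T F ν P K δ X C C₅ ε (u j) (r j) (h j) (ut j) (u (j + 1)) (r (j + 1))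
  /-- accuracy of the references (W6) -/
  acc : ∀ j a, ∀ k ≤ 3, ∀ x, ‖x‖ < r (j + 1) * (1 - 8 * th (h (j + 1))) →
    ‖iteratedFDeriv ℝ k (fun x => u (j + 2) a x - u (j + 1) a x) x‖
      ≤ r (j + 1) * (r (j + 1))⁻¹ ^ k * h j ^ (1 / 2 + 2 * X.c)
  r_lim : Tendsto r atTop (𝓝 0)

/-- **[WINDOWS]** -/
def WindowsStmt (E : Type*) [NormedAddCommGroup E] [InnerProductSpace ℝ E] [FiniteDimensional ℝ E]
    [MeasurableSpace E] [BorelSpace E] (m n Q : ℕ) : Prop :=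
  ∃ X : Exps, X.OK m ∧ ∃ C C₅ : ℝ, 1 ≤ C ∧ 0 ≤ C₅ ∧ ∀ ε : ℝ, 0 < ε → ∃ τ : ℝ, 0 < τ ∧ τ ≤ ε ∧
    ∀ (T : Submodule ℝ E) (F : Frame m n T) (ν : Measure E) (P : E → E →L[ℝ] E) (K : Set E)
      (δ : ℝ → ℝ), Loc m Q T ν P K δ τ →
      (∃ ρ > 0, ∃ w : E → E, ALL.OnGraph T ν ρ w) ∨
        Nonempty (WSeq m n Q T F ν P K δ X C C₅ ε)

/-- **[W6]** (helper117): accuracy of the references from two consecutive windows -/
def AccStmt (E : Type*) [NormedAddCommGroup E] [InnerProductSpace ℝ E] [FiniteDimensional ℝ E]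
    [MeasurableSpace E] [BorelSpace E] (m n Q : ℕ) (X : Exps) : Prop :=
  ∃ ε₀ : ℝ, 0 < ε₀ ∧ ∀ (T : Submodule ℝ E) (F : Frame m n T) (ν : Measure E)
    (P : E → E →L[ℝ] E) (K : Set E) (δ : ℝ → ℝ) (C C₅ ε : ℝ)
    (u ut u' ut' u'' : Fin n → REF.E m → ℝ) (r h r' h' r'' : ℝ),
    (∃ H δ', Skel.IntCyl m Q T 0 (3 / 8) H δ' ν P) → ε ≤ ε₀ → 0 < r → r ≤ 3 / 16 →
    0 < h → h ≤ ε₀ → 0 < h' → h' ≤ h ^ (1 + X.c) → Refe ε r u →
    Nxt m n Q T F ν P K δ X C C₅ ε u r h ut u' r' →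
    Nxt m n Q T F ν P K δ X C C₅ ε u' r' h' ut' u'' r'' →
    ∀ a, ∀ k ≤ 3, ∀ x, ‖x‖ < r' * (1 - 8 * th h') →
      ‖iteratedFDeriv ℝ k (fun x => u'' a x - u' a x) x‖ ≤ r' * r'⁻¹ ^ k * h ^ (1 / 2 + 2 * X.c)

end

end Vale.Agent.P214.WSEQ
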