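import Vale.Agent.P214.WSEQ.Acc
import Vale.Agent.P214.WSEQ.Props
import Vale.Agent.P214.WIN.Real

/-!
# P214, WINDOWS (W6): accuracy of a reference, from two consecutive steps
-/

open Set Filter Topology MeasureTheory Metric Matrix
open scoped RealInnerProductSpace ENNReal ContDiff

namespace Vale.Agent.P214.WSEQ

open WIN STR

noncomputable section

variable {m n : ℕ}
variable {E : Type*} [NormedAddCommGroup E] [InnerProductSpace ℝ E] [FiniteDimensional ℝ E]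
  [MeasurableSpace E] [BorelSpace E] {T : Submodule ℝ E}

omit [BorelSpace E] in
/-- lower bound of the mass of a bump -/
lemma mass_bump {ν : Measure E} {F : Frame m n T} {u : Fin n → REF.E m → ℝ}
    (hu : ∀ a, ContDiff ℝ ∞ (u a)) {Q : ℕ} (hQ : 1 ≤ Q) {c : ℝ}
    (hc : ∀ (x₀ : REF.E m) (ρ : ℝ), 0 < ρ →
      c * ρ ^ m ≤ ∫ x, eta x₀ ρ x ∂(μH[m] : Measure (REF.E m)))
    {D ρ₁ : ℝ}
    (h0 : ∀ (ψ : REF.E m → ℝ) (M : ℝ), Continuous ψ → (∀ x, ρ₁ ≤ ‖x‖ → ψ x = 0) →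
      (∀ x, |ψ x| ≤ M) → |∫ y, ψ (F.xc y) ∂ν - Q * ∫ x, ψ x * √(REF.gm u x).det ∂μH[m]| ≤ D * M)
    {x₀ : REF.E m} {ρ : ℝ} (hρ : 0 < ρ) (hx₀ : ‖x₀‖ + ρ ≤ ρ₁) (hc0 : 0 ≤ c)
    (hD : D ≤ c / 2 * ρ ^ m) :
    c / 2 * ρ ^ m ≤ ∫ y, eta x₀ ρ (F.xc y) ∂ν := by
  have h1 := h0 (eta x₀ ρ) 1 (continuous_eta x₀ ρ) (fun x hx => eta_zero hρ (by
    have := norm_sub_norm_le x x₀
    linarith)) (abs_eta_le x₀ ρ)
  have h2 := hc x₀ ρ hρ
  have h3 := integral_eta_le_area hu (x₀ := x₀) hρ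
  have h4 : (0:ℝ) ≤ c * ρ ^ m := by positivity
  have h5 : ∫ x, eta x₀ ρ x * √(REF.gm u x).det ∂μH[m]
      ≤ Q * ∫ x, eta x₀ ρ x * √(REF.gm u x).det ∂μH[m] := by
    have : (1:ℝ) ≤ Q := by exact_mod_cast hQ
    nlinarith
  have h6 := (abs_le.1 h1).1
  linarith

/-- oscillation of a function with bounded first derivative -/
lemma osc_le {f : REF.E m → ℝ} (hf : ContDiff ℝ ∞ f) {lam : ℝ}
    (hs : ∀ x, ‖iteratedFDeriv ℝ 1 f x‖ ≤ lam) (x x₀ : REF.E m) :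
    |f x - f x₀| ≤ lam * ‖x - x₀‖ := by
  rw [← Real.norm_eq_abs]
  exact Convex.norm_image_sub_le_of_norm_fderiv_le (𝕜 := ℝ) (s := univ)
    (fun z _ => (hf.differentiable (by simp)) z) (fun z _ => by
      have := hs z
      rwa [norm_iteratedFDeriv_one] at this) convex_univ (mem_univ _) (mem_univ _)

/-- derivatives of two functions which differ by a constant near `x` -/
lemma iter_congr {f g : REF.E m → ℝ} {κ : ℝ} {x : REF.E m}
    (h : ∀ᶠ z in 𝓝 x, f z = g z - κ) {k : ℕ} (hk : 1 ≤ k) :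
    iteratedFDeriv ℝ k f x = iteratedFDeriv ℝ k g x := by
  have h2 : f =ᶠ[𝓝 x] fun z => g z - κ := h
  rw [(h2.iteratedFDeriv ℝ k).eq_of_nhds]
  obtain ⟨j, rfl⟩ : ∃ j, k = j + 1 := ⟨k - 1, by omega⟩
  have h3 : fderiv ℝ (fun z => g z - κ) = fderiv ℝ g := by
    funext z; rw [fderiv_sub_const]
  rw [iteratedFDeriv_succ_eq_comp_right, iteratedFDeriv_succ_eq_comp_right, Function.comp_apply,
    Function.comp_apply, h3]

/-- constants of the block, depending on the dimension only -/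
lemma exists_consts (m : ℕ) : ∃ c C : ℝ, 0 < c ∧ 1 ≤ C ∧
    (∀ (x₀ : REF.E m) (ρ : ℝ), 0 < ρ →
      c * ρ ^ m ≤ ∫ x, eta x₀ ρ x ∂(μH[m] : Measure (REF.E m))) ∧
    (∀ k ≤ sW m, ∀ (x₀ : REF.E m) (ρ : ℝ), 0 < ρ →
      ∀ x, ‖iteratedFDeriv ℝ k (eta x₀ ρ) x‖ ≤ C * ρ⁻¹ ^ k) ∧
    ∀ k < 4, ∀ (f : REF.E m → ℝ) (x : REF.E m) (ρ A B : ℝ), 0 < ρ → ContDiff ℝ ∞ f →
      (∀ y, ‖y - x‖ ≤ ρ → ‖f y‖ ≤ A) →
      (∀ y, ‖y - x‖ ≤ ρ → ‖iteratedFDeriv ℝ (sW m) f y‖ ≤ B) →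
      ‖iteratedFDeriv ℝ k f x‖ ≤ C * (A * ρ⁻¹ ^ k + B * ρ ^ (sW m - k)) := by
  obtain ⟨c, hc, hc'⟩ := exists_integral_eta m
  obtain ⟨C, hC1, hC⟩ := exists_eta_bound m (sW m)
  have hs : ∀ k < 4, k < sW m := fun k hk => by unfold sW; omega
  choose! K hK0 hK using fun (k : ℕ) (hk : k < 4) => interp (E := REF.E m) (sW m) k (hs k hk)
  refine ⟨c, C + ∑ k ∈ Finset.range 4, |K k|, hc, ?_, hc', fun k hk x₀ ρ hρ x => ?_, ?_⟩
  · have : 0 ≤ ∑ k ∈ Finset.range 4, |K k| := Finset.sum_nonneg fun _ _ => abs_nonneg _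
    linarith
  · have : 0 ≤ ∑ k ∈ Finset.range 4, |K k| := Finset.sum_nonneg fun _ _ => abs_nonneg _
    refine (hC k hk x₀ ρ hρ x).trans ?_
    gcongr
    linarith
  · intro k hk f x ρ A B hρ hf hA hB
    have hB0 : 0 ≤ B := (norm_nonneg _).trans (hB x (by simpa using hρ.le))
    have hA0 : 0 ≤ A := (norm_nonneg _).trans (hA x (by simpa using hρ.le))
    refine (hK k hk f x ρ A B hρ hf hA hB).trans ?_
    have h1 : |K k| ≤ ∑ k ∈ Finset.range 4, |K k| :=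
      Finset.single_le_sum (f := fun k => |K k|) (fun _ _ => abs_nonneg _)
        (Finset.mem_range.2 hk)
    have h2 : K k ≤ C + ∑ k ∈ Finset.range 4, |K k| := (le_abs_self _).trans (by linarith)
    gcongr

/-- algebra of the sup bound -/
lemma alg_sup {r r' ρ q w w' C c₀ I lam D : ℝ} {K m : ℕ} (hρ : 0 < ρ) (hr' : 0 < r')
    (hrr : r' ≤ r) (hq : 1 ≤ q) (h1 : r ≤ q * ρ) (h2 : r ≤ q * r') (hw' : 0 ≤ w') (hww : w' ≤ w)
    (hC : 0 ≤ C) (hc₀ : 0 < c₀) (hI : c₀ / 2 * ρ ^ m ≤ I)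
    (hD : D * I ≤ r ^ (m + 1) * w * (C * (r / ρ) ^ K) + r' ^ (m + 1) * w' * (C * (r' / ρ) ^ K)
      + lam * I) :
    D ≤ 4 * C / c₀ * r' * w * q ^ (K + m + 1) + lam := by
  have hr : 0 < r := hr'.trans_le hrr
  have hI0 : 0 < I := lt_of_lt_of_le (by positivity) hI
  have hw : 0 ≤ w := hw'.trans hww
  have e1 : r / ρ ≤ q := by rw [div_le_iff₀ hρ]; exact h1
  have e2 : r' / ρ ≤ q := (div_le_div_of_nonneg_right hrr hρ.le).trans e1
  have e3 : r ^ (m + 1) * w * (C * (r / ρ) ^ K) ≤ r' * w * C * q ^ (K + m + 1) * ρ ^ m := by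
    calc r ^ (m + 1) * w * (C * (r / ρ) ^ K) = r * r ^ m * w * (C * (r / ρ) ^ K) := by ring
      _ ≤ (q * r') * (q * ρ) ^ m * w * (C * q ^ K) := by gcongr
      _ = r' * w * C * q ^ (K + m + 1) * ρ ^ m := by rw [mul_pow]; ring
  have e4 : r' ^ (m + 1) * w' * (C * (r' / ρ) ^ K) ≤ r' * w * C * q ^ (K + m + 1) * ρ ^ m := by
    calc r' ^ (m + 1) * w' * (C * (r' / ρ) ^ K) = r' * r' ^ m * w' * (C * (r' / ρ) ^ K) := by ring
      _ ≤ r' * (q * ρ) ^ m * w * (C * q ^ K) := by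
          have : r' ≤ q * ρ := hrr.trans h1
          gcongr
      _ = r' * w * C * q ^ (K + m) * ρ ^ m := by rw [mul_pow]; ring
      _ ≤ r' * w * C * q ^ (K + m + 1) * ρ ^ m := by
          have : q ^ (K + m) ≤ q ^ (K + m + 1) := pow_le_pow_right₀ hq (by omega)
          gcongr
  have e5 : ρ ^ m ≤ 2 / c₀ * I := by
    have : ρ ^ m = 2 / c₀ * (c₀ / 2 * ρ ^ m) := by field_simp
    rw [this]
    gcongr
  have e6 : D * I ≤ (4 * C / c₀ * r' * w * q ^ (K + m + 1) + lam) * I := by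
    have e7 : 0 ≤ r' * w * C * q ^ (K + m + 1) := by positivity
    have e8 := mul_le_mul_of_nonneg_left e5 e7
    calc D * I ≤ 2 * (r' * w * C * q ^ (K + m + 1) * ρ ^ m) + lam * I := by linarith
      _ ≤ 2 * (r' * w * C * q ^ (K + m + 1) * (2 / c₀ * I)) + lam * I := by linarith
      _ = _ := by ring
  exact le_of_mul_le_mul_right e6 hI0

private lemma th_nonneg {h : ℝ} (h0 : 0 < h) (h1 : h ≤ 1) : 0 ≤ th h := by
  unfold th
  have : 0 ≤ Real.log h⁻¹ := Real.log_nonneg ((one_le_inv₀ h0).2 h1)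
  positivity

/-- the collar of the next window is not small against powers of `h` if `h^{1+5c} < h'` -/
lemma exists_th_lower {c : ℝ} (hc : 0 < c) (hc1 : c ≤ 1 / 100) : ∃ ε : ℝ, 0 < ε ∧ ε ≤ 1 / 2 ∧
    ∀ h h' : ℝ, 0 < h → h ≤ ε → h' ≤ h → h ^ (1 + 5 * c) < h' →
      h ^ (5 / 2 * c) + h ^ (10 * c) ≤ 3 * th h' := by
  obtain ⟨ε, hε, hε'⟩ := exists_of_ev
    ((ev_absorb (2 / (3 * (c / 14) ^ 7)) (a := 5 / 2 * c) (b := c) (by linarith)).and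
      (ev_lt (c := 1 / 2) (by norm_num)))
  refine ⟨min ε (1 / 2), by positivity, min_le_right _ _, fun h h' h0 hh hh' hlt => ?_⟩
  obtain ⟨e1, e2⟩ := hε' h h0 (hh.trans (min_le_left _ _))
  have h1 : h ≤ 1 := by linarith
  have hl : h ^ (2:ℝ) < h' := lt_of_le_of_lt (rpow_anti h0 h1 (by linarith)) hlt
  have h0' : 0 < h' := lt_trans (Real.rpow_pos_of_pos h0 _) hlt
  -- logarithm
  have l1 : Real.log h'⁻¹ ≤ 2 * Real.log h⁻¹ := by
    rw [Real.log_inv, Real.log_inv]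
    have := Real.log_le_log (by positivity) hl.le
    rw [Real.log_rpow h0] at this
    linarith
  have l2 : 0 < Real.log h'⁻¹ := Real.log_pos ((one_lt_inv₀ h0').2 (by linarith))
  have l3 : Real.log h⁻¹ ≤ h ^ (-(c / 7)) / (c / 7) := log_inv_le h0 (by positivity)
  have l4 : Real.log h'⁻¹ ≤ h ^ (-(c / 7)) * (14 / c) := by
    calc _ ≤ 2 * (h ^ (-(c / 7)) / (c / 7)) := by linarith
      _ = _ := by field_simp; norm_num
  have l5 : (c / 14) ^ 7 * h ^ c ≤ th h' := by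
    unfold th
    have : (c / 14) ^ 7 * h ^ c = ((h ^ (-(c / 7)) * (14 / c))⁻¹) ^ 7 := by
      rw [mul_inv, ← Real.rpow_neg h0.le, neg_neg, mul_pow, ← Real.rpow_natCast (h ^ (c / 7)),
        ← Real.rpow_mul h0.le]
      have : c / 7 * ((7 : ℕ) : ℝ) = c := by push_cast; ring
      rw [this, inv_div]; ring
    rw [this]
    gcongr
  have l6 : h ^ (10 * c) ≤ h ^ (5 / 2 * c) := rpow_anti h0 h1 (by linarith)
  have l7 : 2 * h ^ (5 / 2 * c) ≤ 3 * ((c / 14) ^ 7 * h ^ c) := by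
    have h3 : (0:ℝ) < 3 * (c / 14) ^ 7 := by positivity
    calc 2 * h ^ (5 / 2 * c)
        = 3 * (c / 14) ^ 7 * (2 / (3 * (c / 14) ^ 7) * h ^ (5 / 2 * c)) := by field_simp
      _ ≤ 3 * (c / 14) ^ 7 * h ^ c := by gcongr
      _ = _ := by ring
  linarith

section main

variable {Q : ℕ} {X : Exps}

/-- sup bound for the difference of two consecutive outputs -/
lemma sup_two (hQ : 1 ≤ Q) (hX : X.OK m) {c₁ C₁ : ℝ} (hc₁ : 0 < c₁) (hC₁ : 1 ≤ C₁)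
    (hmass : ∀ (x₀ : REF.E m) (ρ : ℝ), 0 < ρ →
      c₁ * ρ ^ m ≤ ∫ x, eta x₀ ρ x ∂(μH[m] : Measure (REF.E m)))
    (hder : ∀ k ≤ sW m, ∀ (x₀ : REF.E m) (ρ : ℝ), 0 < ρ →
      ∀ x, ‖iteratedFDeriv ℝ k (eta x₀ ρ) x‖ ≤ C₁ * ρ⁻¹ ^ k)
    {F : Frame m n T} {ν : Measure E}
    {P : E → E →L[ℝ] E} {K : Set E} {δ : ℝ → ℝ} {C C₅ ε : ℝ}
    {u ut u' ut' u'' : Fin n → REF.E m → ℝ} {r h r' h' r'' H : ℝ} [IsFiniteMeasure ν]
    (hslab : ∀ᵐ y ∂ν, T.starProjection y ∈ ball (0 : E) (3 / 8) → ‖y - T.starProjection y‖ ≤ H)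
    (hr : 0 < r) (hr1 : r ≤ 3 / 16) (h0 : 0 < h) (h1 : h ≤ 1) (h0' : 0 < h')
    (hh' : h' ≤ h ^ (1 + X.c)) (hr' : 0 < r')
    (hsm : h ^ (1 / 2 - X.e - 10 * X.c * m) ≤ c₁ / 2)
    (H1 : Nxt m n Q T F ν P K δ X C C₅ ε u r h ut u' r')
    (H2 : Nxt m n Q T F ν P K δ X C C₅ ε u' r' h' ut' u'' r'') (a : Fin n) {x₀ : REF.E m}
    (hx₀ : ‖x₀‖ + r' * h ^ (10 * X.c) ≤ r' * (1 - 5 * th h')) :
    |ut' a x₀ - ut a x₀| ≤ (4 * C₁ / c₁ + 1) * r' * h ^ (1 / 2 + 10 * X.c) := by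
  have hc := hX.c_pos
  have hec := hX.e_le
  have he := hX.e_pos
  have hcs := hX.c_small
  have hc5 := hX.c₅_pos
  have hh1 : h' ≤ h := hh'.trans (by
    calc h ^ (1 + X.c) ≤ h ^ (1:ℝ) := rpow_anti h0 h1 (by linarith)
      _ = h := Real.rpow_one h)
  have h1' : h' ≤ 1 := hh1.trans h1
  have ht := th_nonneg h0 h1
  have ht' := th_nonneg h0' h1'
  set ρ : ℝ := r' * h ^ (10 * X.c) with hρd
  have hρ : 0 < ρ := mul_pos hr' (Real.rpow_pos_of_pos h0 _)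
  have hpr : h ^ (10 * X.c) ≤ 1 := Real.rpow_le_one h0.le h1 (by linarith)
  have hρr' : ρ ≤ r' := mul_le_of_le_one_right hr'.le hpr
  have hrle := H1.r_le
  have hrr : r' ≤ r * (1 - 5 * th h) := by
    refine hrle.trans (mul_le_mul_of_nonneg_left (by linarith) hr.le)
  have hrr' : r' ≤ r := hrr.trans (mul_le_of_le_one_right hr.le (by linarith))
  have hx1 : ‖x₀‖ + ρ ≤ r' := hx₀.trans (mul_le_of_le_one_right hr'.le (by linarith))
  have hsm' : ∀ b, ContDiff ℝ ∞ (u' b) := H1.refe.smooth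
  have hsm'' : ∀ b, ContDiff ℝ ∞ (u'' b) := H2.refe.smooth
  -- the mass
  have hI : c₁ / 2 * ρ ^ m ≤ ∫ y, eta x₀ ρ (F.xc y) ∂ν := by
    refine mass_bump hsm' hQ hmass (D := r' ^ m * h' ^ (1 / 2 - X.e)) H2.mass hρ hx₀ hc₁.le ?_
    have e1 : h' ^ (1 / 2 - X.e) ≤ h ^ (1 / 2 - X.e) :=
      Real.rpow_le_rpow h0'.le hh1 (by nlinarith [hX.c_le])
    have e2 : h ^ (1 / 2 - X.e) = h ^ (1 / 2 - X.e - 10 * X.c * m) * (h ^ (10 * X.c)) ^ m := by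
      rw [← Real.rpow_natCast, ← Real.rpow_mul h0.le, ← Real.rpow_add h0]
      congr 1; ring
    calc r' ^ m * h' ^ (1 / 2 - X.e) ≤ r' ^ m * (c₁ / 2 * (h ^ (10 * X.c)) ^ m) := by
          refine mul_le_mul_of_nonneg_left (e1.trans ?_) (by positivity)
          rw [e2]
          exact mul_le_mul_of_nonneg_right hsm (by positivity)
      _ = c₁ / 2 * ρ ^ m := by rw [hρd, mul_pow]; ring
  -- oscillation
  have hosc : ∀ x, ‖x - x₀‖ < ρ →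
      |(ut' a x - ut a x) - (ut' a x₀ - ut a x₀)| ≤ h' ^ (1 / 2 - X.e) * ρ := by
    intro x hx
    have hxr : ‖x‖ ≤ r' := by
      have := norm_sub_norm_le x x₀
      linarith
    have e1 := H1.tr a x (by linarith)
    have e2 := H2.tr a x (by linarith)
    have e3 := H1.tr a x₀ (by linarith)
    have e4 := H2.tr a x₀ (by linarith)
    have e5 : (ut' a x - ut a x) - (ut' a x₀ - ut a x₀)
        = (u'' a x - u' a x) - (u'' a x₀ - u' a x₀) := by rw [e1, e2, e3, e4]; ring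
    rw [e5]
    have e6 := osc_le ((hsm'' a).sub (hsm' a)) (lam := h' ^ (1 / 2 - X.e)) (fun z => by
      have := H2.size a 1 (by unfold sW; omega) z
      rwa [pow_one, mul_inv_cancel₀ hr'.ne', one_mul] at this) x x₀
    refine e6.trans ?_
    gcongr
  -- two weak bounds
  have hacc := acc_sup F hslab H1.smooth_t H2.smooth_t hder (by linarith) H1.weak H2.weak hρ
    (hρr'.trans hrr') hρr' (hx1.trans hrr) hx₀ (by linarith) a hosc
  -- algebra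
  set q : ℝ := h ^ (-(X.c₅ + 10 * X.c)) with hqd
  have hq : 1 ≤ q := Real.one_le_rpow_of_pos_of_le_one_of_nonpos h0 h1 (by linarith)
  have hrq : r ≤ h ^ (-X.c₅) * r' := by
    have := H1.r_ge
    rw [Real.rpow_neg h0.le, inv_mul_eq_div, le_div_iff₀ (Real.rpow_pos_of_pos h0 _)]
    exact this
  have hrq1 : r ≤ q * ρ := by
    have : q * ρ = h ^ (-X.c₅) * r' := by
      rw [hqd, hρd, mul_comm r', ← mul_assoc, ← Real.rpow_add h0]
      congr 2; ring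
    rw [this]; exact hrq
  have hrq2 : r ≤ q * r' := by
    refine hrq1.trans (mul_le_mul_of_nonneg_left hρr' (by linarith))
  have hww : h' ^ (1 - X.e) ≤ h ^ (1 - X.e) :=
    Real.rpow_le_rpow h0'.le hh1 (by linarith [hX.c_le])
  have hfin := alg_sup (K := sW m) (m := m) (C := C₁) hρ hr' hrr' hq hrq1 hrq2
    (Real.rpow_nonneg h0'.le _) hww (by linarith) hc₁ hI hacc
  -- exponents
  have x1 : h ^ (1 - X.e) * q ^ (sW m + m + 1) ≤ h ^ (1 / 2 + 10 * X.c) := by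
    rw [hqd, ← Real.rpow_natCast, ← Real.rpow_mul h0.le, ← Real.rpow_add h0]
    refine rpow_anti h0 h1 ?_
    have : ((sW m + m + 1 : ℕ) : ℝ) = 5 * m + 17 := by unfold sW; push_cast; ring
    rw [this]
    linarith
  have x2 : h' ^ (1 / 2 - X.e) * ρ ≤ r' * h ^ (1 / 2 + 10 * X.c) := by
    have y1 : h' ^ (1 / 2 - X.e) ≤ (h ^ (1 + X.c)) ^ (1 / 2 - X.e) :=
      Real.rpow_le_rpow h0'.le hh' (by linarith [hX.c_le])
    have y2 : (h ^ (1 + X.c)) ^ (1 / 2 - X.e) * h ^ (10 * X.c) ≤ h ^ (1 / 2 + 10 * X.c) := by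
      rw [← Real.rpow_mul h0.le, ← Real.rpow_add h0]
      refine rpow_anti h0 h1 ?_
      nlinarith [hX.c_le]
    calc h' ^ (1 / 2 - X.e) * ρ ≤ (h ^ (1 + X.c)) ^ (1 / 2 - X.e) * ρ := by gcongr
      _ = r' * ((h ^ (1 + X.c)) ^ (1 / 2 - X.e) * h ^ (10 * X.c)) := by rw [hρd]; ring
      _ ≤ _ := by gcongr
  calc |ut' a x₀ - ut a x₀|
      ≤ 4 * C₁ / c₁ * r' * h ^ (1 - X.e) * q ^ (sW m + m + 1) + h' ^ (1 / 2 - X.e) * ρ := hfin
    _ = 4 * C₁ / c₁ * r' * (h ^ (1 - X.e) * q ^ (sW m + m + 1)) + h' ^ (1 / 2 - X.e) * ρ := by ring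
    _ ≤ 4 * C₁ / c₁ * r' * h ^ (1 / 2 + 10 * X.c) + r' * h ^ (1 / 2 + 10 * X.c) := by gcongr
    _ = _ := by ring

/-- derivatives of order `1 ≤ k ≤ 3`, second window not too small -/
lemma iter_two (hQ : 1 ≤ Q) (hX : X.OK m) {c₁ C₁ : ℝ} (hc₁ : 0 < c₁) (hC₁ : 1 ≤ C₁)
    (hmass : ∀ (x₀ : REF.E m) (ρ : ℝ), 0 < ρ →
      c₁ * ρ ^ m ≤ ∫ x, eta x₀ ρ x ∂(μH[m] : Measure (REF.E m)))
    (hder : ∀ k ≤ sW m, ∀ (x₀ : REF.E m) (ρ : ℝ), 0 < ρ →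
      ∀ x, ‖iteratedFDeriv ℝ k (eta x₀ ρ) x‖ ≤ C₁ * ρ⁻¹ ^ k)
    (hint : ∀ k < 4, ∀ (f : REF.E m → ℝ) (x : REF.E m) (ρ A B : ℝ), 0 < ρ → ContDiff ℝ ∞ f →
      (∀ y, ‖y - x‖ ≤ ρ → ‖f y‖ ≤ A) →
      (∀ y, ‖y - x‖ ≤ ρ → ‖iteratedFDeriv ℝ (sW m) f y‖ ≤ B) →
      ‖iteratedFDeriv ℝ k f x‖ ≤ C₁ * (A * ρ⁻¹ ^ k + B * ρ ^ (sW m - k)))
    {F : Frame m n T} {ν : Measure E}
    {P : E → E →L[ℝ] E} {K : Set E} {δ : ℝ → ℝ} {C C₅ ε : ℝ}
    {u ut u' ut' u'' : Fin n → REF.E m → ℝ} {r h r' h' r'' H : ℝ} [IsFiniteMeasure ν]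
    (hslab : ∀ᵐ y ∂ν, T.starProjection y ∈ ball (0 : E) (3 / 8) → ‖y - T.starProjection y‖ ≤ H)
    (hr : 0 < r) (hr1 : r ≤ 3 / 16) (h0 : 0 < h) (h1 : h ≤ 1) (h0' : 0 < h')
    (hh' : h' ≤ h ^ (1 + X.c)) (hr' : 0 < r')
    (hsm : h ^ (1 / 2 - X.e - 10 * X.c * m) ≤ c₁ / 2)
    (hth : h ^ (5 / 2 * X.c) + h ^ (10 * X.c) ≤ 3 * th h')
    (habs : C₁ * (4 * C₁ / c₁ + 2) * h ^ (1 / 2 + 5 / 2 * X.c) ≤ h ^ (1 / 2 + 2 * X.c))
    (H1 : Nxt m n Q T F ν P K δ X C C₅ ε u r h ut u' r')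
    (H2 : Nxt m n Q T F ν P K δ X C C₅ ε u' r' h' ut' u'' r'') (a : Fin n) {k : ℕ} (hk1 : 1 ≤ k)
    (hk3 : k ≤ 3) {x : REF.E m} (hx : ‖x‖ < r' * (1 - 8 * th h')) :
    ‖iteratedFDeriv ℝ k (fun x => u'' a x - u' a x) x‖ ≤ r' * r'⁻¹ ^ k * h ^ (1 / 2 + 2 * X.c) := by
  have hc := hX.c_pos
  have hec := hX.e_le
  have he := hX.e_pos
  have hcl := hX.c_le
  have hh1 : h' ≤ h := hh'.trans (by
    calc h ^ (1 + X.c) ≤ h ^ (1:ℝ) := rpow_anti h0 h1 (by linarith)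
      _ = h := Real.rpow_one h)
  have ht := th_nonneg h0 h1
  have ht' := th_nonneg h0' (hh1.trans h1)
  have hrr' : r' ≤ r := H1.r_le.trans (mul_le_of_le_one_right hr.le (by linarith))
  have hsm' : ∀ b, ContDiff ℝ ∞ (u' b) := H1.refe.smooth
  have hsm'' : ∀ b, ContDiff ℝ ∞ (u'' b) := H2.refe.smooth
  set σ : ℝ := r' * h ^ (5 / 2 * X.c) with hσd
  have hσ : 0 < σ := mul_pos hr' (Real.rpow_pos_of_pos h0 _)
  have hroom : ‖x‖ + σ + r' * h ^ (10 * X.c) ≤ r' * (1 - 5 * th h') := by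
    have := mul_le_mul_of_nonneg_left hth hr'.le
    rw [hσd]
    nlinarith
  have hpos : 0 < r' * h ^ (10 * X.c) := mul_pos hr' (Real.rpow_pos_of_pos h0 _)
  have hle1 : r' * (1 - 5 * th h') ≤ r' := mul_le_of_le_one_right hr'.le (by linarith)
  -- near the ball the difference is the difference of the outputs up to a constant
  have hdiff : ∀ y : REF.E m, ‖y - x‖ ≤ σ → ∀ᶠ z in 𝓝 y,
      (fun x => u'' a x - u' a x) z = (fun x => ut' a x - ut a x) z - (ut' a 0 - ut a 0) := by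
    intro y hy
    have hy1 : ‖y‖ < 9 / 32 := by
      have := norm_sub_norm_le y x
      linarith
    have : ball (0 : REF.E m) (9 / 32) ∈ 𝓝 y := isOpen_ball.mem_nhds (by simpa using hy1)
    filter_upwards [this] with z hz
    have hz' : ‖z‖ ≤ 9 / 32 := (by simpa using hz : ‖z‖ < 9 / 32).le
    rw [H1.tr a z hz', H2.tr a z hz']
    ring
  rw [iter_congr (hdiff x (by simpa using hσ.le)) hk1]
  refine (hint k (by omega) (fun x => ut' a x - ut a x) x σ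
    ((4 * C₁ / c₁ + 1) * r' * h ^ (1 / 2 + 10 * X.c))
    (r' * r'⁻¹ ^ sW m * h' ^ (1 / 2 - X.e)) hσ ((H2.smooth_t a).sub (H1.smooth_t a)) ?_ ?_).trans ?_
  · intro y hy
    rw [Real.norm_eq_abs]
    refine sup_two hQ hX hc₁ hC₁ hmass hder hslab hr hr1 h0 h1 h0' hh' hr' hsm H1 H2 a ?_
    have := norm_sub_norm_le y x
    linarith
  · intro y hy
    rw [← iter_congr (hdiff y hy) (by unfold sW; omega)]
    exact H2.size a (sW m) le_rfl y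
  · -- exponents
    have hsW : k + 13 ≤ sW m := by unfold sW; omega
    have e1 : (4 * C₁ / c₁ + 1) * r' * h ^ (1 / 2 + 10 * X.c) * σ⁻¹ ^ k
        ≤ (4 * C₁ / c₁ + 1) * (r' * r'⁻¹ ^ k * h ^ (1 / 2 + 5 / 2 * X.c)) := by
      have y1 : σ⁻¹ ^ k = r'⁻¹ ^ k * h ^ (-(5 / 2 * X.c * k)) := by
        rw [hσd, mul_inv, mul_pow, ← Real.rpow_neg h0.le, ← Real.rpow_natCast (h ^ _),
          ← Real.rpow_mul h0.le]
        congr 2; ring
      have y2 : h ^ (1 / 2 + 10 * X.c) * h ^ (-(5 / 2 * X.c * k)) ≤ h ^ (1 / 2 + 5 / 2 * X.c) := by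
        rw [← Real.rpow_add h0]
        refine rpow_anti h0 h1 ?_
        have : (k : ℝ) ≤ 3 := by exact_mod_cast hk3
        nlinarith
      rw [y1]
      calc _ = (4 * C₁ / c₁ + 1) * (r' * r'⁻¹ ^ k *
            (h ^ (1 / 2 + 10 * X.c) * h ^ (-(5 / 2 * X.c * k)))) := by ring
        _ ≤ _ := by gcongr
    have e2 : r' * r'⁻¹ ^ sW m * h' ^ (1 / 2 - X.e) * σ ^ (sW m - k)
        ≤ r' * r'⁻¹ ^ k * h ^ (1 / 2 + 5 / 2 * X.c) := by
      have y1 : σ ^ (sW m - k) = r' ^ (sW m - k) * h ^ (5 / 2 * X.c * ((sW m - k : ℕ) : ℝ)) := by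
        rw [hσd, mul_pow, ← Real.rpow_natCast (h ^ _), ← Real.rpow_mul h0.le]
      have y2 : r'⁻¹ ^ sW m * r' ^ (sW m - k) = r'⁻¹ ^ k := by
        have : sW m = (sW m - k) + k := by omega
        conv_lhs => rw [this]
        rw [pow_add]
        have : (sW m - k + k - k) = sW m - k := by omega
        rw [this, mul_comm (r'⁻¹ ^ (sW m - k)), mul_assoc, ← mul_pow, inv_mul_cancel₀ hr'.ne',
          one_pow, mul_one]
      have y3 : h' ^ (1 / 2 - X.e) ≤ h ^ (1 / 2 - X.e) :=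
        Real.rpow_le_rpow h0'.le hh1 (by linarith)
      have y4 : h ^ (1 / 2 - X.e) * h ^ (5 / 2 * X.c * ((sW m - k : ℕ) : ℝ))
          ≤ h ^ (1 / 2 + 5 / 2 * X.c) := by
        rw [← Real.rpow_add h0]
        refine rpow_anti h0 h1 ?_
        have : (13 : ℝ) ≤ ((sW m - k : ℕ) : ℝ) := by
          have : 13 ≤ sW m - k := by omega
          exact_mod_cast this
        nlinarith
      rw [y1]
      calc _ = r' * (r'⁻¹ ^ sW m * r' ^ (sW m - k)) * (h' ^ (1 / 2 - X.e) *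
            h ^ (5 / 2 * X.c * ((sW m - k : ℕ) : ℝ))) := by ring
        _ ≤ r' * r'⁻¹ ^ k * (h ^ (1 / 2 - X.e) * h ^ (5 / 2 * X.c * ((sW m - k : ℕ) : ℝ))) := by
            rw [y2]; gcongr
        _ ≤ _ := by gcongr
    calc C₁ * ((4 * C₁ / c₁ + 1) * r' * h ^ (1 / 2 + 10 * X.c) * σ⁻¹ ^ k
          + r' * r'⁻¹ ^ sW m * h' ^ (1 / 2 - X.e) * σ ^ (sW m - k))
        ≤ C₁ * ((4 * C₁ / c₁ + 1) * (r' * r'⁻¹ ^ k * h ^ (1 / 2 + 5 / 2 * X.c))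
          + r' * r'⁻¹ ^ k * h ^ (1 / 2 + 5 / 2 * X.c)) := by gcongr
      _ = r' * r'⁻¹ ^ k * (C₁ * (4 * C₁ / c₁ + 2) * h ^ (1 / 2 + 5 / 2 * X.c)) := by ring
      _ ≤ _ := by gcongr

omit [BorelSpace E] in
/-- derivatives of order `1 ≤ k ≤ 3`, second window very small -/
lemma iter_small (hX : X.OK m)
    {F : Frame m n T} {ν : Measure E}
    {P : E → E →L[ℝ] E} {K : Set E} {δ : ℝ → ℝ} {C C₅ ε : ℝ}
    {ut' u' u'' : Fin n → REF.E m → ℝ} {h r' h' r'' : ℝ}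
    (h0 : 0 < h) (h1 : h ≤ 1) (h0' : 0 < h') (hr' : 0 < r')
    (hh' : h' ≤ h ^ (1 + 5 * X.c))
    (H2 : Nxt m n Q T F ν P K δ X C C₅ ε u' r' h' ut' u'' r'') (a : Fin n) {k : ℕ}
    (hk3 : k ≤ 3) (x : REF.E m) :
    ‖iteratedFDeriv ℝ k (fun x => u'' a x - u' a x) x‖ ≤ r' * r'⁻¹ ^ k * h ^ (1 / 2 + 2 * X.c) := by
  have hc := hX.c_pos
  have hec := hX.e_le
  have he := hX.e_pos
  have hcl := hX.c_le
  refine (H2.size a k (by unfold sW; omega) x).trans ?_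
  have e1 : h' ^ (1 / 2 - X.e) ≤ h ^ (1 / 2 + 2 * X.c) := by
    calc h' ^ (1 / 2 - X.e) ≤ (h ^ (1 + 5 * X.c)) ^ (1 / 2 - X.e) :=
          Real.rpow_le_rpow h0'.le hh' (by linarith)
      _ = h ^ ((1 + 5 * X.c) * (1 / 2 - X.e)) := (Real.rpow_mul h0.le _ _).symm
      _ ≤ _ := rpow_anti h0 h1 (by nlinarith)
  gcongr

/-- **[W6]** accuracy of the references, from two consecutive windows -/
theorem accStmt (hQ : 1 ≤ Q) (hX : X.OK m) : AccStmt E m n Q X := by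
  obtain ⟨c₁, C₁, hc₁, hC₁, hmass, hder, hint⟩ := exists_consts m
  have hc := hX.c_pos
  have hec := hX.e_le
  have he := hX.e_pos
  have hcl := hX.c_le
  have hcs := hX.c_small
  have hc5 := hX.c₅_pos
  have hm0 : (0:ℝ) ≤ m := Nat.cast_nonneg m
  obtain ⟨ε₁, hε₁, hε₁', hth⟩ := exists_th_lower hc hcl
  obtain ⟨ε₂, hε₂, hε₂'⟩ := exists_of_ev
    ((ev_small (a := 1 / 2 - X.e - 10 * X.c * m) (c := c₁ / 2) (by nlinarith) (by positivity)).and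
      (ev_absorb (C₁ * (4 * C₁ / c₁ + 2)) (a := 1 / 2 + 5 / 2 * X.c) (b := 1 / 2 + 2 * X.c)
        (by linarith)))
  refine ⟨min ε₁ ε₂, lt_min hε₁ hε₂, ?_⟩
  intro T F ν P K δ C C₅ ε u ut u' ut' u'' r h r' h' r'' hcyl _ hr hr1 h0 hh h0' hh' _ H1 H2 a
  obtain ⟨H, δ', hcyl⟩ := hcyl
  have := hcyl.cyl.fin
  have hh1 : h ≤ ε₁ := hh.trans (min_le_left _ _)
  have h1 : h ≤ 1 := by linarith
  obtain ⟨e1, e2⟩ := hε₂' h h0 (hh.trans (min_le_right _ _))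
  have hle : h' ≤ h := hh'.trans (by
    calc h ^ (1 + X.c) ≤ h ^ (1:ℝ) := rpow_anti h0 h1 (by linarith)
      _ = h := Real.rpow_one h)
  have hr' : 0 < r' := lt_of_lt_of_le (mul_pos hr (Real.rpow_pos_of_pos h0 _)) H1.r_ge
  have main : ∀ k, 1 ≤ k → k ≤ 3 → ∀ x, ‖x‖ < r' * (1 - 8 * th h') →
      ‖iteratedFDeriv ℝ k (fun x => u'' a x - u' a x) x‖
        ≤ r' * r'⁻¹ ^ k * h ^ (1 / 2 + 2 * X.c) := by
    intro k hk1 hk3 x hx
    rcases le_or_gt h' (h ^ (1 + 5 * X.c)) with hs | hs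
    · exact iter_small hX h0 h1 h0' hr' hs H2 a hk3 x
    · exact iter_two hQ hX hc₁ hC₁ hmass hder hint hcyl.cyl.slab hr hr1 h0 h1 h0' hh' hr' e1
        (hth h h' h0 hh1 hle hs) e2 H1 H2 a hk1 hk3 hx
  intro k hk3 x hx
  rcases Nat.eq_zero_or_pos k with rfl | hk1
  · have hd : ContDiff ℝ ∞ (fun x => u'' a x - u' a x) :=
      (H2.refe.smooth a).sub (H1.refe.smooth a)
    have ht' := th_nonneg h0' (hle.trans h1)
    have hle1 : r' * (1 - 8 * th h') ≤ r' := mul_le_of_le_one_right hr'.le (by linarith)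
    have e3 := Convex.norm_image_sub_le_of_norm_fderiv_le (𝕜 := ℝ)
      (s := ball (0 : REF.E m) (r' * (1 - 8 * th h'))) (C := h ^ (1 / 2 + 2 * X.c))
      (fun z _ => (hd.differentiable (by simp)) z) (fun z hz => by
        have := main 1 le_rfl (by norm_num) z (by simpa using hz)
        rwa [norm_iteratedFDeriv_one, pow_one, mul_inv_cancel₀ hr'.ne', one_mul] at this)
      (convex_ball _ _) (x := 0) (y := x)
      (by simpa using (norm_nonneg x).trans_lt hx) (by simpa using hx)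
    rw [H1.zero a, H2.zero a, sub_zero, sub_zero, sub_zero] at e3
    rw [norm_iteratedFDeriv_zero, pow_zero, mul_one]
    refine e3.trans ?_
    rw [mul_comm]
    have : ‖x‖ ≤ r' := (hx.trans_le hle1).le
    gcongr
  · exact main k hk1 hk3 x hx

end main

end

end Vale.Agent.P214.WSEQ
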