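import Vale.Agent.P214.WSEQ.Props
import Vale.Agent.P214.W5.Adapt

/-!
# P214, WINDOWS (W7): sum of the accuracies

`WSeq.acc_sum` : `‖D^k (u_i - u_{j+1})‖ ≤ 2 r_{j+1}^{1-k} h_j^{1/2+2c}` on `|x| < r_{i-1} (1 - 8 θ)`.
`WSeq.hN_acc` : comparison of the heights of two references of the sequence.
-/

open Set Filter Topology MeasureTheory Metric
open scoped RealInnerProductSpace ENNReal ContDiff

set_option linter.all false

namespace Vale.Agent.P214.WSEQ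

open WIN STR

variable {m n Q : ℕ} {E : Type*} [NormedAddCommGroup E] [InnerProductSpace ℝ E]
  [FiniteDimensional ℝ E] [MeasurableSpace E] [BorelSpace E] {T : Submodule ℝ E}
  {F : Frame m n T} {ν : Measure E} {P : E → E →L[ℝ] E} {K : Set E} {δ : ℝ → ℝ} {X : Exps}
  {C C₅ ε : ℝ}

lemma th_nonneg_acc {h : ℝ} (h0 : 0 < h) (h1 : h ≤ 1) : 0 ≤ th h := by
  unfold th
  have : 0 ≤ Real.log h⁻¹ := Real.log_nonneg (one_le_inv₀ h0 |>.2 h1)
  positivity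

namespace WSeq

variable (W : WSeq m n Q T F ν P K δ X C C₅ ε)

include W

lemma h_succ (j : ℕ) : W.h (j + 1) ≤ W.h j ^ (1 + X.c) := by
  rw [W.h_eq (j + 1)]; exact (W.nxt j).h_next

lemma th_nn (hε : ε ≤ 1) (j : ℕ) : 0 ≤ th (W.h j) := th_nonneg_acc (W.h_pos j) ((W.h_le j).trans hε)

lemma r_succ_le (hε : ε ≤ 1) (j : ℕ) : W.r (j + 1) ≤ W.r j * (1 - 12 * th (W.h j)) :=
  (W.nxt j).r_le

lemma r_anti (hε : ε ≤ 1) {i j : ℕ} (hij : i ≤ j) : W.r j ≤ W.r i := by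
  induction hij with
  | refl => exact le_rfl
  | step _ ih =>
    refine le_trans ?_ ih
    refine (W.nxt _).r_le.trans ?_
    have h1 := W.th_nn hε
    exact mul_le_of_le_one_right (W.r_pos _).le (by linarith [h1 ‹_›])

lemma rt_anti (hε : ε ≤ 1) {i j : ℕ} (hij : i ≤ j) :
    W.r j * (1 - 8 * th (W.h j)) ≤ W.r i * (1 - 8 * th (W.h i)) := by
  rcases hij.eq_or_lt with rfl | hlt
  · exact le_rfl
  · have h1 : W.r j ≤ W.r (i + 1) := W.r_anti hε hlt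
    have h2 := (W.nxt i).r_le
    have h3 := W.th_nn hε j
    have h4 := W.th_nn hε i
    have h5 := W.r_pos j
    have h6 := W.r_pos i
    calc W.r j * (1 - 8 * th (W.h j)) ≤ W.r j := by nlinarith
      _ ≤ W.r i * (1 - 12 * th (W.h i)) := h1.trans h2
      _ ≤ _ := by nlinarith

/-- one step of the sum -/
lemma sum_step (hX : X.OK m) (hε : ε ≤ 1) (h2 : ∀ H, 0 < H → H ≤ ε →
    2 * H ^ (1 / 2 + 2 * X.c + X.c / 4) ≤ H ^ (1 / 2 + 2 * X.c)) (j k : ℕ) (hk : k ≤ 3) :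
    2 * (W.r (j + 2) * (W.r (j + 2))⁻¹ ^ k * W.h (j + 1) ^ (1 / 2 + 2 * X.c))
      ≤ W.r (j + 1) * (W.r (j + 1))⁻¹ ^ k * W.h j ^ (1 / 2 + 2 * X.c) := by
  have hr1 := W.r_pos (j + 1)
  have hr2 := W.r_pos (j + 2)
  have hh0 := W.h_pos j
  have hh1 := W.h_pos (j + 1)
  have hh1' : W.h (j + 1) ≤ 1 := (W.h_le _).trans hε
  have hc := hX.c_pos
  have hc5 := hX.c₅_pos
  have hc5' := hX.c₅_le
  have hcl := hX.c_le
  -- the ratio of the radii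
  set p := W.h (j + 1) ^ X.c₅ with hp
  have hp0 : 0 < p := Real.rpow_pos_of_pos hh1 _
  have hp1 : p ≤ 1 := Real.rpow_le_one hh1.le hh1' hc5.le
  have hge : W.r (j + 1) * p ≤ W.r (j + 2) := (W.nxt (j + 1)).r_ge
  have hle : W.r (j + 2) ≤ W.r (j + 1) := W.r_anti hε (Nat.le_succ _)
  have hinv : (W.r (j + 2))⁻¹ ≤ (W.r (j + 1))⁻¹ * p⁻¹ := by
    rw [← mul_inv]
    exact inv_anti₀ (by positivity) hge
  have hrk : W.r (j + 2) * (W.r (j + 2))⁻¹ ^ k ≤ W.r (j + 1) * (W.r (j + 1))⁻¹ ^ k * p⁻¹ ^ 2 := by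
    have hp1' : 1 ≤ p⁻¹ := (one_le_inv₀ hp0).2 hp1
    rcases k with _ | k
    · simp only [pow_zero, mul_one]
      have : (1:ℝ) ≤ p⁻¹ ^ 2 := one_le_pow₀ hp1'
      nlinarith
    · have e1 : W.r (j + 2) * (W.r (j + 2))⁻¹ ^ (k + 1) = (W.r (j + 2))⁻¹ ^ k := by
        rw [pow_succ]; field_simp
      have e2 : W.r (j + 1) * (W.r (j + 1))⁻¹ ^ (k + 1) = (W.r (j + 1))⁻¹ ^ k := by
        rw [pow_succ]; field_simp
      rw [e1, e2]
      calc (W.r (j + 2))⁻¹ ^ k ≤ ((W.r (j + 1))⁻¹ * p⁻¹) ^ k := by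
            gcongr
        _ = (W.r (j + 1))⁻¹ ^ k * p⁻¹ ^ k := mul_pow _ _ _
        _ ≤ (W.r (j + 1))⁻¹ ^ k * p⁻¹ ^ 2 := by
            have : p⁻¹ ^ k ≤ p⁻¹ ^ 2 := pow_le_pow_right₀ hp1' (by omega)
            gcongr
  -- the heights
  have hpp : p⁻¹ ^ 2 * W.h (j + 1) ^ (1 / 2 + 2 * X.c)
      = W.h (j + 1) ^ (1 / 2 + 2 * X.c - 2 * X.c₅) := by
    rw [hp, inv_pow, ← Real.rpow_natCast, ← Real.rpow_mul hh1.le, ← Real.rpow_neg hh1.le,
      ← Real.rpow_add hh1]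
    congr 1
    push_cast
    ring
  have h3 : W.h (j + 1) ^ (1 / 2 + 2 * X.c - 2 * X.c₅)
      ≤ W.h j ^ (1 / 2 + 2 * X.c + X.c / 4) := by
    have h4 : W.h (j + 1) ^ (1 / 2 + 2 * X.c - 2 * X.c₅)
        ≤ (W.h j ^ (1 + X.c)) ^ (1 / 2 + 2 * X.c - 2 * X.c₅) :=
      Real.rpow_le_rpow hh1.le (W.h_succ j) (by linarith)
    rw [← Real.rpow_mul hh0.le] at h4
    refine h4.trans (Real.rpow_le_rpow_of_exponent_ge hh0 ((W.h_le _).trans hε) ?_)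
    nlinarith
  calc 2 * (W.r (j + 2) * (W.r (j + 2))⁻¹ ^ k * W.h (j + 1) ^ (1 / 2 + 2 * X.c))
      ≤ 2 * (W.r (j + 1) * (W.r (j + 1))⁻¹ ^ k * p⁻¹ ^ 2 * W.h (j + 1) ^ (1 / 2 + 2 * X.c)) := by
        gcongr
    _ = W.r (j + 1) * (W.r (j + 1))⁻¹ ^ k
        * (2 * (p⁻¹ ^ 2 * W.h (j + 1) ^ (1 / 2 + 2 * X.c))) := by ring
    _ ≤ W.r (j + 1) * (W.r (j + 1))⁻¹ ^ k * W.h j ^ (1 / 2 + 2 * X.c) := by
        rw [hpp]
        gcongr
        exact (by linarith : 2 * W.h (j + 1) ^ (1 / 2 + 2 * X.c - 2 * X.c₅)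
          ≤ 2 * W.h j ^ (1 / 2 + 2 * X.c + X.c / 4)).trans (h2 _ hh0 (W.h_le _))

/-- sum of accuracies, induction form -/
theorem acc_sum_aux (hX : X.OK m) (hε : ε ≤ 1) (h2 : ∀ H, 0 < H → H ≤ ε →
    2 * H ^ (1 / 2 + 2 * X.c + X.c / 4) ≤ H ^ (1 / 2 + 2 * X.c)) (l : ℕ) :
    ∀ j a, ∀ k ≤ 3, ∀ x, ‖x‖ < W.r (j + l) * (1 - 8 * th (W.h (j + l))) →
      ‖iteratedFDeriv ℝ k (fun x => W.u (j + 1 + l) a x - W.u (j + 1) a x) x‖
        ≤ 2 * (W.r (j + 1) * (W.r (j + 1))⁻¹ ^ k * W.h j ^ (1 / 2 + 2 * X.c)) := by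
  induction l with
  | zero =>
    intro j a k hk x hx
    have hr1 := W.r_pos (j + 1)
    have hh0 := W.h_pos j
    have e1 : (fun x => W.u (j + 1 + 0) a x - W.u (j + 1) a x) = fun _ => (0:ℝ) := by
      funext x; rw [add_zero, sub_self]
    rw [e1]
    have e2 : iteratedFDeriv ℝ k (fun _ : REF.E m => (0:ℝ)) x = 0 := by
      have := iteratedFDeriv_zero_fun (𝕜 := ℝ) (E := REF.E m) (F := ℝ) (n := k)
      exact congrFun this x
    rw [e2, norm_zero]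
    positivity
  | succ l ih =>
    intro j a k hk x hx
    have hs : ∀ i, ContDiff ℝ ∞ (W.u i a) := fun i => (W.refe i).smooth a
    have e1 : (fun x => W.u (j + 1 + (l + 1)) a x - W.u (j + 1) a x)
        = (fun x => W.u (j + 1 + 1 + l) a x - W.u (j + 1 + 1) a x)
          + (fun x => W.u (j + 2) a x - W.u (j + 1) a x) := by
      funext x
      simp only [Pi.add_apply]
      rw [show j + 1 + (l + 1) = j + 1 + 1 + l by ring]
      ring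
    have hk' : ((k : ℕ) : WithTop ℕ∞) ≤ (∞ : WithTop ℕ∞) := by exact_mod_cast le_top
    have d1 : ContDiffAt ℝ k (fun x => W.u (j + 1 + 1 + l) a x - W.u (j + 1 + 1) a x) x :=
      (((hs _).sub (hs _)).of_le hk').contDiffAt
    have d2 : ContDiffAt ℝ k (fun x => W.u (j + 2) a x - W.u (j + 1) a x) x :=
      (((hs _).sub (hs _)).of_le hk').contDiffAt
    rw [e1, iteratedFDeriv_add_apply d1 d2]
    have h3 := ih (j + 1) a k hk x (by
      rw [show j + 1 + l = j + (l + 1) by ring]; exact hx)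
    have h4 : ‖x‖ < W.r (j + 1) * (1 - 8 * th (W.h (j + 1))) :=
      lt_of_lt_of_le hx (W.rt_anti hε (by omega))
    have h5 := W.acc j a k hk x h4
    have h6 := W.sum_step hX hε h2 j k hk
    refine (norm_add_le _ _).trans ?_
    calc _ ≤ 2 * (W.r (j + 2) * (W.r (j + 2))⁻¹ ^ k * W.h (j + 1) ^ (1 / 2 + 2 * X.c))
          + W.r (j + 1) * (W.r (j + 1))⁻¹ ^ k * W.h j ^ (1 / 2 + 2 * X.c) := add_le_add h3 h5
      _ ≤ _ := by linarith

end WSeq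

/-- **[W7]** sum of the accuracies -/
theorem acc_sum (hX : X.OK m) : ∃ ε₀ : ℝ, 0 < ε₀ ∧ ε₀ ≤ 1 ∧ ∀ {n Q : ℕ} {E : Type*}
    [NormedAddCommGroup E] [InnerProductSpace ℝ E] [FiniteDimensional ℝ E] [MeasurableSpace E]
    [BorelSpace E] {T : Submodule ℝ E} {F : Frame m n T} {ν : Measure E} {P : E → E →L[ℝ] E}
    {K : Set E} {δ : ℝ → ℝ} {C C₅ ε : ℝ} (W : WSeq m n Q T F ν P K δ X C C₅ ε), ε ≤ ε₀ →
    ∀ j i, j + 1 ≤ i → ∀ a, ∀ k ≤ 3, ∀ x, ‖x‖ < W.r (i - 1) * (1 - 8 * th (W.h (i - 1))) →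
      ‖iteratedFDeriv ℝ k (fun x => W.u i a x - W.u (j + 1) a x) x‖
        ≤ 2 * (W.r (j + 1) * (W.r (j + 1))⁻¹ ^ k * W.h j ^ (1 / 2 + 2 * X.c)) := by
  obtain ⟨ε₁, hε₁, h1⟩ := W5.exists_pow_small (a := 1 / 2 + 2 * X.c + X.c / 4)
    (b := 1 / 2 + 2 * X.c) 2 (by linarith [hX.c_pos])
  refine ⟨min 1 ε₁, by positivity, min_le_left _ _, ?_⟩
  intro n Q E _ _ _ _ _ T F ν P K δ C C₅ ε W hε j i hij a k hk x hx
  obtain ⟨l, rfl⟩ : ∃ l, i = j + 1 + l := ⟨i - (j + 1), by omega⟩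
  refine W.acc_sum_aux hX (hε.trans (min_le_left _ _))
    (fun H hH hHε => h1 H hH (hHε.trans (hε.trans (min_le_right _ _)))) l j a k hk x ?_
  rwa [show j + 1 + l - 1 = j + l by omega] at hx

/-- comparison of the heights of two references of the sequence -/
theorem hN_acc (hX : X.OK m) : ∃ ε₀ : ℝ, 0 < ε₀ ∧ ε₀ ≤ 1 ∧ ∀ {n Q : ℕ} {E : Type*}
    [NormedAddCommGroup E] [InnerProductSpace ℝ E] [FiniteDimensional ℝ E] [MeasurableSpace E]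
    [BorelSpace E] {T : Submodule ℝ E} {F : Frame m n T} {ν : Measure E} {P : E → E →L[ℝ] E}
    {K : Set E} {δ : ℝ → ℝ} {C C₅ ε : ℝ} (W : WSeq m n Q T F ν P K δ X C C₅ ε), ε ≤ ε₀ →
    ∀ {G : Set E} {H M : ℝ}, FV.CylStat m T G H ν P →
    ∀ j i, j + 1 ≤ i → ∀ t, 0 < t → t ≤ W.r (i - 1) * (1 - 8 * th (W.h (i - 1))) → ball 0 t ⊆ G →
      ν.real (Skel.cylSet T 0 t) ≤ M * t ^ m →
      hN m T (F.lift (W.u i)) ν t ≤ 2 * hN m T (F.lift (W.u (j + 1))) ν t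
        + 8 * n ^ 2 * M * (W.r (j + 1) / t) ^ 2 * W.h j ^ (1 + 4 * X.c) := by
  obtain ⟨ε₀, hε₀, hε₁, H⟩ := acc_sum hX
  refine ⟨ε₀, hε₀, hε₁, ?_⟩
  intro n Q E _ _ _ _ _ T F ν P K δ C C₅ ε W hε G h M hC j i hij t ht htr hG hM
  have hs : ∀ i, Continuous (KMS.rel T (F.lift (W.u i))) := fun i =>
    (KMS.ref_lift (F := F) (W.refe i).smooth).contDiff_rel.continuous
  have hr := W.r_pos (j + 1)
  have hh := W.h_pos j
  have h1 := W5.hV_change hC hG (hs (j + 1)) (hs i) ht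
    (d := n * (2 * (W.r (j + 1) * W.h j ^ (1 / 2 + 2 * X.c)))) (fun y hy => by
      have h2 : ‖F.lift (W.u i) y - F.lift (W.u (j + 1)) y‖
          ≤ n * (2 * (W.r (j + 1) * W.h j ^ (1 / 2 + 2 * X.c))) := by
        refine WIN.norm_lift_sub_le F fun a => ?_
        have h3 := H W hε j i hij a 0 (by norm_num) (F.xc y)
          (by rw [KMS.norm_xc]; exact hy.trans_le htr)
        rw [norm_iteratedFDeriv_zero, Real.norm_eq_abs, pow_zero, mul_one] at h3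
        exact h3
      have h3 : KMS.rel T (F.lift (W.u i)) y - KMS.rel T (F.lift (W.u (j + 1))) y
          = -(F.lift (W.u i) y - F.lift (W.u (j + 1)) y) := by unfold KMS.rel; abel
      rw [h3, norm_neg]; exact h2) hM
  have e1 : 2 * M * (n * (2 * (W.r (j + 1) * W.h j ^ (1 / 2 + 2 * X.c))) / t) ^ 2
      = 8 * n ^ 2 * M * (W.r (j + 1) / t) ^ 2 * W.h j ^ (1 + 4 * X.c) := by
    have e2 : (W.h j ^ (1 / 2 + 2 * X.c)) ^ 2 = W.h j ^ (1 + 4 * X.c) := by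
      rw [← Real.rpow_natCast, ← Real.rpow_mul hh.le]
      congr 1
      push_cast
      ring
    rw [← e2]
    ring
  rw [e1] at h1
  exact h1

end Vale.Agent.P214.WSEQ
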