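import Vale.Agent.P214.WSEQ.Props
import Vale.Agent.P214.W5.Pt
import Vale.Agent.P214.ALL.UC1
import Vale.Agent.P214.ALL.Frame
import Vale.Agent.P214.STR.Scale

/-!
# P214, WINDOWS: the local situation `Loc` at a good point, and the conclusion of `UC` from
`WindowsStmt` and the exclusion of infinite windows sequences
-/

open Set Filter Topology MeasureTheory Metric
open scoped RealInnerProductSpace ENNReal NNReal ContDiff Pointwise

set_option linter.all false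

namespace Vale.Agent.P214.WSEQ

open WIN STR SCALE

noncomputable section

variable {E : Type*} [NormedAddCommGroup E] [InnerProductSpace ℝ E] [FiniteDimensional ℝ E]
  [MeasurableSpace E] [BorelSpace E]
variable {m : ℕ} {U : Set E} {V : IntegralVarifold m U} {x : E} {r₁ r₂ : ℝ}

lemma reg_mono (T : Submodule ℝ E) (h : r₂ ≤ r₁) : SUB.reg T r₂ ⊆ SUB.reg T r₁ := by
  intro y hy
  rw [SUB.mem_reg] at hy ⊢
  exact ⟨hy.1.trans_le h, hy.2.trans h⟩

lemma cylMeas_restrict (V : IntegralVarifold m U) (x : E) (h : r₂ ≤ r₁) :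
    (SUB.cylMeas V x r₁).restrict (SUB.reg (V.tangent x) r₂) = SUB.cylMeas V x r₂ := by
  unfold SUB.cylMeas
  rw [Measure.restrict_restrict (SUB.measurableSet_reg _ _), inter_eq_left.2 (reg_mono _ h)]

lemma measurableSet_cyl (T : Submodule ℝ E) (z : E) (r : ℝ) :
    MeasurableSet (Skel.cylSet T z r) :=
  (isOpen_ball.preimage T.starProjection.continuous).measurableSet

/-- almost every point of the small cylinder lies in the small slab -/
lemma ae_reg {τ : ℝ} (hτ1 : τ ≤ 1) (hr₂ : 0 < r₂)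
    (hI : Skel.IntCyl m (V.mult x) (V.tangent x) 0 r₂ (τ * r₂) τ (SUB.cylMeas V x r₁)
      (SUB.trP V x)) {r : ℝ} (hr : r ≤ r₂) :
    ∀ᵐ y ∂(SUB.cylMeas V x r₁), y ∈ Skel.cylSet (V.tangent x) 0 r →
      y ∈ SUB.reg (V.tangent x) r₂ := by
  filter_upwards [hI.cyl.slab] with y hy hyr
  have h1 : ‖(V.tangent x).starProjection y‖ < r := by
    simpa [Skel.cylSet] using hyr
  rw [SUB.mem_reg]
  refine ⟨h1.trans_le hr, ?_⟩
  have h2 := hy (by rw [mem_ball_zero_iff]; exact h1.trans_le hr)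
  have h3 : ‖FV.co (V.tangent x) y‖ ≤ τ * r₂ := h2
  nlinarith

lemma restrict_cyl_eq {τ : ℝ} (hτ1 : τ ≤ 1) (hr₂ : 0 < r₂) (h21 : r₂ ≤ r₁)
    (hI : Skel.IntCyl m (V.mult x) (V.tangent x) 0 r₂ (τ * r₂) τ (SUB.cylMeas V x r₁)
      (SUB.trP V x)) {r : ℝ} (hr : r ≤ r₂) :
    (SUB.cylMeas V x r₁).restrict (Skel.cylSet (V.tangent x) 0 r)
      = (SUB.cylMeas V x r₂).restrict (Skel.cylSet (V.tangent x) 0 r) := by
  rw [← cylMeas_restrict V x h21, Measure.restrict_restrict (measurableSet_cyl _ _ _)]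
  refine Measure.restrict_congr_set ?_
  filter_upwards [ae_reg hτ1 hr₂ hI hr] with y hy
  have : (y ∈ Skel.cylSet (V.tangent x) 0 r) =
      (y ∈ Skel.cylSet (V.tangent x) 0 r ∩ SUB.reg (V.tangent x) r₂) := by
    apply propext
    exact ⟨fun h => ⟨h, hy h⟩, fun h => h.1⟩
  exact this

/-- transfer of the estimates from the small slab to the big one -/
lemma transfer_lim {τ η : ℝ} (hτ1 : τ ≤ 1) (hr₂ : 0 < r₂) (h21 : r₂ ≤ r₁)
    (hI : ∀ r, 0 < r → r ≤ r₁ → Skel.IntCyl m (V.mult x) (V.tangent x) 0 r (τ * r) τ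
      (SUB.cylMeas V x r₁) (SUB.trP V x))
    {r : ℝ} (hr0 : 0 < r) (hr : r ≤ r₂)
    (h2 : Skel.IntCyl m (V.mult x) (V.tangent x) 0 r (η * r) η (SUB.cylMeas V x r₂)
      (SUB.trP V x))
    (h3 : Skel.exc (V.tangent x) (SUB.cylMeas V x r₂) (SUB.trP V x) 0 r ≤ η * r ^ m) :
    Skel.IntCyl m (V.mult x) (V.tangent x) 0 r (η * r) η (SUB.cylMeas V x r₁) (SUB.trP V x) ∧
      Skel.exc (V.tangent x) (SUB.cylMeas V x r₁) (SUB.trP V x) 0 r ≤ η * r ^ m := by
  have hI2 := hI r₂ hr₂ h21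
  have hIr := hI r hr0 (hr.trans h21)
  have hres := restrict_cyl_eq hτ1 hr₂ h21 hI2 hr
  have hmC := measurableSet_cyl (V.tangent x) (0:E) r
  refine ⟨⟨⟨hIr.cyl.fin, hIr.cyl.meas, hIr.cyl.proj, hIr.cyl.dimT, hIr.cyl.isOpen, ?_,
    hIr.cyl.stat⟩, hIr.mem, hr0, hIr.int, ?_⟩, ?_⟩
  · have h4 : ∀ᵐ y ∂((SUB.cylMeas V x r₂).restrict (Skel.cylSet (V.tangent x) 0 r)),
        ‖y - (V.tangent x).starProjection y‖ ≤ η * r := by
      rw [ae_restrict_iff' hmC]
      exact h2.cyl.slab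
    rw [← hres, ae_restrict_iff' hmC] at h4
    exact h4
  · have h4 : (SUB.cylMeas V x r₁).real (Skel.cylSet (V.tangent x) 0 r)
        = (SUB.cylMeas V x r₂).real (Skel.cylSet (V.tangent x) 0 r) := by
      have h5 := congrArg (fun μ : Measure E => μ.real univ) hres
      simpa [measureReal_restrict_apply MeasurableSet.univ] using h5
    rw [h4]
    exact h2.mass
  · have h4 : Skel.exc (V.tangent x) (SUB.cylMeas V x r₁) (SUB.trP V x) 0 r
        = Skel.exc (V.tangent x) (SUB.cylMeas V x r₂) (SUB.trP V x) 0 r := by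
      unfold Skel.exc
      rw [hres]
    rw [h4]
    exact h3

/-- the excess and the height are arbitrarily small at small scales -/
lemma exists_lim (hU : IsOpen U) (hst : V.IsStationary) (hx : Skel.GoodPt V x) {τ : ℝ}
    (hτ1 : τ ≤ 1) (hr₁ : 0 < r₁)
    (hI : ∀ r, 0 < r → r ≤ r₁ → Skel.IntCyl m (V.mult x) (V.tangent x) 0 r (τ * r) τ
      (SUB.cylMeas V x r₁) (SUB.trP V x)) {η : ℝ} (hη : 0 < η) :
    ∃ r₀ > 0, ∀ r, 0 < r → r ≤ r₀ →
      Skel.IntCyl m (V.mult x) (V.tangent x) 0 r (η * r) η (SUB.cylMeas V x r₁) (SUB.trP V x) ∧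
      Skel.exc (V.tangent x) (SUB.cylMeas V x r₁) (SUB.trP V x) 0 r ≤ η * r ^ m := by
  obtain ⟨r₂, h1, h2⟩ := ((SUB.subcyl hU hst hx hη).and (Ioc_mem_nhdsGT hr₁)).exists
  have hr₂ : 0 < r₂ := h2.1
  exact ⟨r₂, hr₂, fun r hr hrr => transfer_lim hτ1 hr₂ h2.2 hI hr hrr (h1.2 r hr hrr).1
    (h1.2 r hr hrr).2⟩

/-- scaling of the density defect -/
lemma measure_scale {t : ℝ} (ht : 0 < t) (T : Submodule ℝ E) (K : Set E) (s : ℝ) :
    μH[m] (((T : Set E) ∩ ball 0 s) \ (T.starProjection '' ((fun y : E => t⁻¹ • y) '' K)))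
      = ENNReal.ofReal (t⁻¹ ^ m) *
        μH[m] (((T : Set E) ∩ ball 0 (t * s)) \ (T.starProjection '' K)) := by
  have h1 : ((T : Set E) ∩ ball 0 s) \ (T.starProjection '' ((fun y : E => t⁻¹ • y) '' K))
      = (t⁻¹ : ℝ) • (((T : Set E) ∩ ball 0 (t * s)) \ (T.starProjection '' K)) := by
    have hne : t⁻¹ ≠ 0 := (inv_pos.2 ht).ne'
    ext y
    rw [mem_smul_set_iff_inv_smul_mem₀ hne, inv_inv]
    constructor
    · rintro ⟨⟨hyT, hyb⟩, hyn⟩
      refine ⟨⟨T.smul_mem _ hyT, ?_⟩, ?_⟩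
      · rw [mem_ball_zero_iff] at hyb ⊢
        rw [norm_smul, Real.norm_eq_abs, abs_of_pos ht]
        exact mul_lt_mul_of_pos_left hyb ht
      · rintro ⟨w, hw, hwe⟩
        refine hyn ⟨t⁻¹ • w, ⟨w, hw, rfl⟩, ?_⟩
        rw [map_smul, hwe, smul_smul, inv_mul_cancel₀ ht.ne', one_smul]
    · rintro ⟨⟨hyT, hyb⟩, hyn⟩
      refine ⟨⟨?_, ?_⟩, ?_⟩
      · have := T.smul_mem t⁻¹ hyT
        rwa [smul_smul, inv_mul_cancel₀ ht.ne', one_smul] at this
      · rw [mem_ball_zero_iff] at hyb ⊢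
        rw [norm_smul, Real.norm_eq_abs, abs_of_pos ht] at hyb
        exact lt_of_mul_lt_mul_left hyb ht.le
      · rintro ⟨w, ⟨w', hw', rfl⟩, hwe⟩
        refine hyn ⟨w', hw', ?_⟩
        rw [← hwe]
        simp only [map_smul]
        rw [smul_smul, mul_inv_cancel₀ ht.ne', one_smul]
  rw [h1, Measure.hausdorffMeasure_smul₀ (by positivity) (inv_pos.2 ht).ne']
  rw [ENNReal.smul_def, smul_eq_mul]
  congr 1
  rw [← Real.enorm_eq_ofReal (by positivity)]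
  simp [enorm, nnnorm_pow, NNReal.rpow_natCast]

lemma scal_aux {t : ℝ} (ht : 0 < t) (m : ℕ) (η r : ℝ) :
    t⁻¹ ^ m * (η * (t * r) ^ m) = η * r ^ m := by
  have h1 : t⁻¹ ^ m * t ^ m = 1 := by rw [← mul_pow, inv_mul_cancel₀ ht.ne', one_pow]
  rw [mul_pow]
  calc t⁻¹ ^ m * (η * (t ^ m * r ^ m)) = (t⁻¹ ^ m * t ^ m) * (η * r ^ m) := by ring
    _ = η * r ^ m := by rw [h1, one_mul]

/-- **the local situation at a good point** -/
theorem exists_loc (hU : IsOpen U) (hst : V.IsStationary) (hx : Skel.GoodPt V x) {τ : ℝ}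
    (hτ : 0 < τ) : ∀ᶠ r₁ in 𝓝[>] (0:ℝ), 0 < r₁ ∧ closedBall x (2 * r₁) ⊆ U ∧
      ∃ (K : Set E) (δ : ℝ → ℝ), Loc m (V.mult x) (V.tangent x)
        (dilM m 0 ((3 / 8) / r₁) (SUB.cylMeas V x r₁))
        (dilP 0 ((3 / 8) / r₁) (SUB.trP V x)) K δ τ := by
  have hcg := cg_pos m
  set τ' : ℝ := min τ 1 with hτ'
  have hτ'0 : 0 < τ' := lt_min hτ one_pos
  have hτ'1 : τ' ≤ 1 := min_le_right _ _
  have hτ'τ : τ' ≤ τ := min_le_left _ _
  obtain ⟨s₀, hs₀, hdens⟩ := mem_nhdsGT_iff_exists_Ioo_subset.1 (SUB.dens_KK hx hτ)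
  have hs₀' : (0:ℝ) < s₀ := hs₀
  filter_upwards [SUB.subcyl hU hst hx hτ'0, self_mem_nhdsWithin,
    Ioo_mem_nhdsGT hs₀'] with r₁ h1 hr₁ hr₁s
  have hr₁' : (0:ℝ) < r₁ := hr₁
  obtain ⟨hb, hall⟩ := h1
  have hT := (hall r₁ hr₁' le_rfl).1.cyl.dimT
  have hfin := (hall r₁ hr₁' le_rfl).1.cyl.fin
  have hQ : (1:ℝ) ≤ V.mult x := by exact_mod_cast hx.mult
  have h0 := W5.zero_mem_KC hx hr₁'
  have hH0 := W5.highD_KC hr₁' hb h0
  set t : ℝ := 8 / 3 * r₁ with ht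
  have ht0 : 0 < t := by positivity
  have hti : (3 / 8) / r₁ = t⁻¹ := by rw [ht]; field_simp
  have htr : ∀ r : ℝ, r ≤ 3 / 8 → t * r ≤ r₁ := by
    intro r hr
    rw [ht]
    nlinarith
  have htr2 : ∀ r : ℝ, r ≤ 3 / 16 → t * r ≤ r₁ / 2 := by
    intro r hr
    rw [ht]
    nlinarith
  rw [hti]
  refine ⟨hr₁', hb, (fun y : E => t⁻¹ • y) '' W5.KC V x r₁, fun s => W5.dl V x r₁ (t * s), ?_⟩
  have hIτ : ∀ r, 0 < r → r ≤ r₁ → Skel.IntCyl m (V.mult x) (V.tangent x) 0 r (τ * r) τ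
      (SUB.cylMeas V x r₁) (SUB.trP V x) := by
    intro r hr hrr
    obtain ⟨c1, c2, c3, c4, c5⟩ := (hall r hr hrr).1
    refine ⟨⟨c1.fin, c1.meas, c1.proj, c1.dimT, c1.isOpen, ?_, c1.stat⟩, c2, c3, c4,
      c5.trans (by gcongr)⟩
    filter_upwards [c1.slab] with y hy hyG
    exact (hy hyG).trans (by gcongr)
  refine
    { int := ?_
      exc := ?_
      cpt := ?_
      high := ?_
      zero_mem := ?_
      zero_supp := ?_
      δ_nn := ?_
      δ_le := ?_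
      dens := ?_
      δ_lim := ?_
      lim := ?_ }
  · intro r hr hrr
    have h2 := hIτ (t * r) (by positivity) (htr r hrr)
    have h3 : τ * (t * r) = t * (τ * r) := by ring
    rw [h3] at h2
    exact intCyl_bu ht0 h2
  · intro r hr hrr
    have h2 := (hall (t * r) (by positivity) (htr r hrr)).2
    have h3 := exc_bu (T := V.tangent x) (m := m) ht0 (SUB.cylMeas V x r₁) (SUB.trP V x) 0 r
    rw [smul_zero] at h3
    rw [h3]
    calc t⁻¹ ^ m * Skel.exc (V.tangent x) (SUB.cylMeas V x r₁) (SUB.trP V x) 0 (t * r)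
        ≤ t⁻¹ ^ m * (τ' * (t * r) ^ m) := by gcongr
      _ = τ' * r ^ m := scal_aux ht0 m _ _
      _ ≤ τ * r ^ m := by gcongr
  · exact (W5.isCompact_KC hU hr₁' hb).image (by fun_prop)
  · rintro z ⟨w, hw, rfl⟩
    have h2 := W5.highD_KC hr₁' hb hw
    have h3 : r₁ / 2 = t * (3 / 16) := by rw [ht]; ring
    rw [h3] at h2
    exact HighD_bu ht0 h2
  · exact ⟨0, h0, by simp⟩
  · have h2 : (0:E) ∈ (SUB.cylMeas V x r₁).support := by
      refine W5.mem_support_of_ratio (m := m) (s₀ := r₁ / 2) (by positivity) fun s hs hs2 => ?_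
      have := hH0 s hs (by simpa using hs2)
      have h3 : 0 < (V.mult x : ℝ) * cg m := by positivity
      linarith
    have h3 := support_bu (m := m) ht0 h2
    rwa [smul_zero] at h3
  · intro s hs _
    exact div_nonneg ENNReal.toReal_nonneg (by positivity)
  · intro s hs hs2
    have h2 := htr2 s hs2
    have hts : 0 < t * s := by positivity
    have h3 := hdens (show t * s ∈ Ioo 0 s₀ from ⟨hts, by linarith [hr₁s.2]⟩)
    have h4 : μH[m] (((V.tangent x : Set E) ∩ ball 0 (t * s))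
        \ ((V.tangent x).starProjection '' W5.KC V x r₁)) ≤ ENNReal.ofReal (τ * (t * s) ^ m) := by
      refine (measure_mono ?_).trans h3
      rintro y ⟨⟨hyT, hyb⟩, hyn⟩
      refine ⟨⟨hyT, (mem_ball_zero_iff.1 hyb).le⟩, fun hc => hyn ?_⟩
      obtain ⟨w, ⟨hw1, hw2⟩, rfl⟩ := hc
      exact ⟨w, ⟨hw1, closedBall_subset_closedBall h2 hw2⟩, rfl⟩
    unfold W5.dl
    rw [div_le_iff₀ (by positivity)]
    exact ENNReal.toReal_le_of_le_ofReal (by positivity) h4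
  · intro s hs hs2
    rw [measure_scale ht0]
    have hts : 0 < t * s := by positivity
    have h2 : μH[m] (((V.tangent x : Set E) ∩ ball 0 (t * s))
        \ ((V.tangent x).starProjection '' W5.KC V x r₁)) ≠ ⊤ := by
      refine ((measure_mono (t := DEN.disc (V.tangent x) (t * s)) ?_).trans_lt ?_).ne
      · rintro y ⟨⟨hyT, hyb⟩, -⟩
        exact ⟨hyT, (mem_ball_zero_iff.1 hyb).le⟩
      · rw [DEN.measure_disc hT hts.le]
        exact ENNReal.ofReal_lt_top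
    rw [← ENNReal.ofReal_toReal h2, ← ENNReal.ofReal_mul (by positivity)]
    refine ENNReal.ofReal_le_ofReal (le_of_eq ?_)
    unfold W5.dl
    rw [mul_pow, inv_pow]
    field_simp
  · have h2 := W5.tendsto_dl hx hr₁'
    refine h2.comp (tendsto_nhdsWithin_iff.2 ⟨?_, ?_⟩)
    · have h3 : Tendsto (fun s : ℝ => t * s) (𝓝 0) (𝓝 (t * 0)) :=
        (continuous_const.mul continuous_id).tendsto 0
      rw [mul_zero] at h3
      exact h3.mono_left nhdsWithin_le_nhds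
    · filter_upwards [self_mem_nhdsWithin] with s hs
      exact mul_pos ht0 hs
  · intro η hη
    obtain ⟨r₀, hr₀, h2⟩ := exists_lim hU hst hx hτ'1 hr₁' (fun r hr hrr => (hall r hr hrr).1) hη
    refine ⟨t⁻¹ * r₀, by positivity, fun r hr hrr => ?_⟩
    have h3 : t * r ≤ r₀ := by
      calc t * r ≤ t * (t⁻¹ * r₀) := by gcongr
        _ = r₀ := by rw [← mul_assoc, mul_inv_cancel₀ ht0.ne', one_mul]
    obtain ⟨h4, h5⟩ := h2 (t * r) (by positivity) h3
    constructor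
    · have h6 : η * (t * r) = t * (η * r) := by ring
      rw [h6] at h4
      exact intCyl_bu ht0 h4
    · have h6 := exc_bu (T := V.tangent x) (m := m) ht0 (SUB.cylMeas V x r₁) (SUB.trP V x) 0 r
      rw [smul_zero] at h6
      rw [h6]
      calc t⁻¹ ^ m * Skel.exc (V.tangent x) (SUB.cylMeas V x r₁) (SUB.trP V x) 0 (t * r)
          ≤ t⁻¹ ^ m * (η * (t * r) ^ m) := by gcongr
        _ = η * r ^ m := scal_aux ht0 m _ _

/-- **The conclusion of `UC` at a good point**, from the windows statement and the exclusion of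
infinite windows sequences -/
theorem uc_of_windows {n : ℕ} (hn : Module.finrank ℝ E - m = n)
    (hU : IsOpen U) (hst : V.IsStationary) (hx : Skel.GoodPt V x)
    (hW : WindowsStmt E m n (V.mult x))
    (hno : ∀ (X : Exps), X.OK m → ∀ C C₅ : ℝ, 1 ≤ C → 0 ≤ C₅ → ∃ ε : ℝ, 0 < ε ∧
      ∀ (T : Submodule ℝ E) (F : Frame m n T) (ν : Measure E) (P : E → E →L[ℝ] E) (K : Set E)
        (δ : ℝ → ℝ) (τ : ℝ), 0 < τ → τ ≤ ε → Loc m (V.mult x) T ν P K δ τ →
        IsEmpty (WSeq m n (V.mult x) T F ν P K δ X C C₅ ε)) :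
    ∃ W S : Set E, IsOpen W ∧ x ∈ W ∧ W ⊆ U ∧ IsSmoothSubmanifold m S ∧ V.spt ∩ W ⊆ S := by
  obtain ⟨X, hX, C, C₅, hC, hC₅, H⟩ := hW
  obtain ⟨ε, hε, hno'⟩ := hno X hX C C₅ hC hC₅
  obtain ⟨τ, hτ, hτε, H'⟩ := H ε hε
  obtain ⟨r₁, hr₁, hb, K, δ, hL⟩ := (exists_loc hU hst hx hτ).exists
  obtain ⟨F⟩ := exists_frame (n := n) (hx.tan.1) hn
  rcases H' _ F _ _ K δ hL with ⟨ρ, hρ, w, hw⟩ | hS
  · exact ALL.uc_of_dil hr₁ hb hx (div_pos (by norm_num) hr₁) hρ hw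
  · exact absurd hS (not_nonempty_iff.2 (hno' _ F _ _ K δ τ hτ hτε hL))

end

end Vale.Agent.P214.WSEQ
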