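import Vale.Agent.P214.WSEQ.Props

/-! # P214, block WINDOWS: exponents, smallness of the heights, data of (W5) -/

open Set Filter Topology MeasureTheory Metric
open scoped RealInnerProductSpace ENNReal ContDiff

set_option linter.all false

namespace Vale.Agent.P214.WSEQ

open WIN STR

/-- the exponents exist -/
theorem exists_exps (m : ℕ) {c₀ : ℝ} (hc₀ : 0 < c₀) (hc₀8 : c₀ ≤ 1 / 8) :
    ∃ X : Exps, X.OK m ∧ X.c₀ = c₀ := by
  set c : ℝ := min (c₀ / 10) (1 / (100 * (5 * m + 17))) with hc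
  have hm : (0:ℝ) ≤ m := Nat.cast_nonneg m
  have hcp : 0 < c := lt_min (by positivity) (by positivity)
  have hc1 : c ≤ c₀ / 10 := min_le_left _ _
  have hc2 : c ≤ 1 / (100 * (5 * m + 17)) := min_le_right _ _
  have hc3 : c * (100 * (5 * m + 17)) ≤ 1 := by
    rwa [le_div_iff₀ (by positivity)] at hc2
  have hs : ((sW m : ℕ) : ℝ) = 4 * m + 16 := by unfold sW; push_cast; ring
  refine ⟨⟨c₀, c₀ * (c / 200), c, 9 / 10 * c, 2 * c / (200 * sW m), c / 100, 200 * sW m⟩, ?_, rfl⟩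
  have hsp : (0:ℝ) < 200 * sW m := by rw [hs]; positivity
  have hc5 : 2 * c / (200 * sW m) ≤ c / 100 := by
    rw [div_le_div_iff₀ hsp (by norm_num), hs]; nlinarith
  have hmc : 0 ≤ c * m := mul_nonneg hcp.le hm
  constructor
  · exact hcp
  · show c ≤ 1 / 100
    nlinarith
  · show (5 * m + 17) * (2 * c / (200 * sW m) + 10 * c) + 12 * c + c / 100 ≤ 1 / 2
    have h1 : (5 * (m:ℝ) + 17) * (2 * c / (200 * sW m) + 10 * c)
        ≤ (5 * m + 17) * (c / 100 + 10 * c) :=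
      mul_le_mul_of_nonneg_left (by linarith) (by positivity)
    nlinarith
  · exact hc₀8
  · show 10 * c ≤ c₀
    linarith
  · rfl
  · show 0 < 2 * c / (200 * sW m)
    positivity
  · exact hc5
  · show ((200 * sW m : ℕ) : ℝ) * (2 * c / (200 * sW m)) = 2 * c
    push_cast
    rw [mul_div_assoc', mul_comm, mul_div_assoc, div_self hsp.ne', mul_one]
  · show (m:ℝ) * (2 * c / (200 * sW m)) ≤ c₀ / 2
    rw [← mul_div_assoc, div_le_iff₀ hsp, hs]
    nlinarith
  · show 8 * (sW m : ℝ) * (2 * c / (200 * sW m)) ≤ c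
    rw [← mul_div_assoc, div_le_iff₀ hsp]
    have : (0:ℝ) < sW m := by rw [hs]; positivity
    nlinarith
  · show 0 < c / 100
    positivity
  · exact le_rfl
  · show 0 < c₀ * (c / 200)
    positivity
  · show c₀ * (c / 200) ≤ c₀ ^ 2
    nlinarith
  · show c / 100 = 2 * (c₀ * (c / 200) / c₀)
    field_simp
    norm_num

section OK

variable {X : Exps} {m : ℕ} (hX : X.OK m)
include hX

lemma Exps.OK.c₀_pos : 0 < X.c₀ := by
  have := hX.c_c₀; have := hX.c_pos; linarith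

lemma Exps.OK.c'_pos : 0 < X.c' := by
  rw [hX.c'_eq]; have := hX.c_pos; linarith

lemma Exps.OK.D_pos : 1 ≤ X.D := by
  by_contra h
  have h1 : X.D = 0 := by omega
  have h2 := hX.D_c₅
  rw [h1] at h2
  have h3 := hX.c_pos
  simp at h2
  linarith

/-- the exponents satisfy the hypotheses of (W5) -/
lemma Exps.OK.expo : W5.Expo m X.D X.c₀ X.c X.c' X.c₅ X.e := by
  have h1 := hX.c_pos
  have h2 := hX.c_c₀
  have h3 := hX.c'_eq
  have h4 := hX.c₅_pos
  have h5 := hX.c₅_le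
  have h6 := hX.D_c₅
  have h7 := hX.e_pos
  have h8 := hX.e_le
  exact ⟨hX.D_pos, h1, h4, h7.le, hX.c'_pos, by rw [h3]; linarith, hX.m_c₅,
    by rw [h3]; nlinarith, by rw [h6]; linarith, by rw [h3]; linarith⟩

end OK

/-- collars: all powers of `h` are eventually smaller than `th h` -/
lemma exists_th {a b : ℝ} (ha : 0 < a) (hb : 0 < b) :
    ∃ ε : ℝ, 0 < ε ∧ ε < 1 ∧ ∀ h, 0 < h → h ≤ ε → h ^ a ≤ th h ∧ 0 < th h ∧ th h ≤ b := by
  have h1 : Tendsto (fun h : ℝ => Real.log h⁻¹) (𝓝[>] 0) atTop :=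
    Real.tendsto_log_atTop.comp tendsto_inv_nhdsGT_zero
  have h2 : Tendsto (fun h : ℝ => th h) (𝓝[>] 0) (𝓝 0) := by
    have h3 := (tendsto_inv_atTop_zero.comp h1).pow 7
    rw [zero_pow (by norm_num)] at h3
    exact h3
  have h4 : Tendsto (fun h : ℝ => Real.exp (-a * Real.log h⁻¹) * (Real.log h⁻¹) ^ 7)
      (𝓝[>] 0) (𝓝 0) := by
    have h5 : Tendsto (fun x : ℝ => Real.exp (-a * x) * x ^ 7) atTop (𝓝 0) := by
      have := tendsto_rpow_mul_exp_neg_mul_atTop_nhds_zero 7 a ha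
      refine this.congr fun x => ?_
      rw [show (7:ℝ) = ((7:ℕ):ℝ) by norm_num, Real.rpow_natCast, mul_comm]
    exact h5.comp h1
  obtain ⟨ε, hε, h6⟩ := mem_nhdsGT_iff_exists_Ioo_subset.1
    ((h1.eventually (eventually_gt_atTop 1)).and ((h2.eventually (gt_mem_nhds hb)).and
      (h4.eventually (gt_mem_nhds one_pos))))
  have hε' : (0:ℝ) < ε := hε
  refine ⟨min (ε / 2) (1 / 2), lt_min (by positivity) (by norm_num),
    (min_le_right _ _).trans_lt (by norm_num), fun h hh hhe => ?_⟩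
  obtain ⟨h7, h8, h9⟩ := h6 ⟨hh, (hhe.trans (min_le_left _ _)).trans_lt (by linarith)⟩
  have h10 : 0 < Real.log h⁻¹ := by linarith
  have h11 : h ^ a = Real.exp (-a * Real.log h⁻¹) := by
    rw [Real.rpow_def_of_pos hh, Real.log_inv]
    congr 1; ring
  refine ⟨?_, by unfold th; positivity, h8.le⟩
  rw [h11]
  unfold th
  rw [inv_pow]
  have h12 : 0 < (Real.log h⁻¹) ^ 7 := by positivity
  calc Real.exp (-a * Real.log h⁻¹)
      = Real.exp (-a * Real.log h⁻¹) * (Real.log h⁻¹) ^ 7 * ((Real.log h⁻¹) ^ 7)⁻¹ := by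
        rw [mul_assoc, mul_inv_cancel₀ h12.ne', mul_one]
    _ ≤ 1 * ((Real.log h⁻¹) ^ 7)⁻¹ := mul_le_mul_of_nonneg_right h9.le (inv_nonneg.2 h12.le)
    _ = _ := one_mul _

/-- `th` is monotone -/
lemma th_mono {h h' : ℝ} (hh : 0 < h) (hhh : h ≤ h') (h1 : h' < 1) : th h ≤ th h' := by
  unfold th
  have h2 : 0 < Real.log h'⁻¹ := Real.log_pos (by rw [one_lt_inv₀ (hh.trans_le hhh)]; exact h1)
  have h3 : Real.log h'⁻¹ ≤ Real.log h⁻¹ := by
    rw [Real.log_inv, Real.log_inv]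
    have := Real.log_le_log hh hhh
    linarith
  have h4 : (Real.log h⁻¹)⁻¹ ≤ (Real.log h'⁻¹)⁻¹ := by gcongr
  have h5 : 0 ≤ (Real.log h⁻¹)⁻¹ := inv_nonneg.2 (h2.le.trans h3)
  gcongr

end Vale.Agent.P214.WSEQ
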