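import Vale.Agent.P214.WSEQ.Props
import Vale.Agent.P214.ALL.Fin

/-!
# P214, WINDOWS: the two stop alternatives

`onGraph_of_hN_zero`: the height vanishes at some stage.  `onGraph_of_radii`: the radii do not tend
to zero.
-/

open Set Filter Topology MeasureTheory Metric
open scoped RealInnerProductSpace ENNReal ContDiff

set_option linter.all false

namespace Vale.Agent.P214.WSEQ

open WIN STR

variable {m n : ℕ} {E : Type*} [NormedAddCommGroup E] [InnerProductSpace ℝ E]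
  [FiniteDimensional ℝ E] [MeasurableSpace E] [BorelSpace E]

/-- **(S1)** vanishing height: the measure sits on the graph of the reference -/
theorem onGraph_of_hN_zero {T : Submodule ℝ E} (F : Frame m n T) {G : Set E} {H : ℝ}
    {ν : Measure E} {P : E → E →L[ℝ] E} (hC : FV.CylStat m T G H ν P) {r ε : ℝ} (hr0 : 0 < r)
    (hG : ball 0 r ⊆ G) {u : Fin n → REF.E m → ℝ} (hu : Refe ε r u)
    (h0 : hN m T (F.lift u) ν r = 0) : ALL.OnGraph T ν r (F.lift u) := by
  have hE0 : hE T (F.lift u) ν r = 0 := by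
    unfold hN at h0
    rcases mul_eq_zero.1 h0 with h1 | h1
    · exact absurd (inv_eq_zero.1 h1) (by positivity)
    · exact h1
  have hsm := hu.smooth
  refine ⟨?_, fun y _ => F.star_lift u _, ?_⟩
  · have h1 : (fun y => F.lift u (T.starProjection y)) = F.lift u := by
      funext y; exact F.lift_base u y
    rw [h1]
    exact (F.contDiff_lift hsm).contDiffOn
  · refine ALL.ae_graph_of_tendsto (w := fun _ => F.lift u) (w₀ := F.lift u) ?_ ?_
      (ALL.measurableSet_cyl T 0 r) ?_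
    · exact Metric.tendstoUniformlyOn_iff.2 fun δ hδ =>
        Eventually.of_forall fun _ y _ => by simpa using hδ
    · have h3 := ALL.lintegral_eq_hE hC F (fun a => (hsm a).continuous) hu.supp hG
      have h4 : ∫⁻ y in T.starProjection ⁻¹' ball 0 r,
          ‖y - T.starProjection y - F.lift u (T.starProjection y)‖ₑ ^ 2 ∂ν = 0 := by
        rw [h3, hE0, ENNReal.ofReal_zero]
      simp only [h4]
      exact tendsto_const_nhds
    · intro j
      have hc : Continuous fun y => F.lift u (T.starProjection y) :=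
        (F.continuous_lift fun a => (hsm a).continuous).comp T.starProjection.continuous
      exact hc.measurable.aemeasurable

/-- geometric decay from the superlinear recursion -/
lemma geom_of_pow {hh : ℕ → ℝ} {c : ℝ} (hpos : ∀ j, 0 < hh j) (h0 : hh 0 < 1) (hc : 0 < c)
    (hrec : ∀ j, hh (j + 1) ≤ hh j ^ (1 + c)) :
    0 < hh 0 ^ c ∧ hh 0 ^ c < 1 ∧ ∀ j, hh j ≤ (hh 0 ^ c) ^ j := by
  set q := hh 0 ^ c with hq
  have hq0 : 0 < q := Real.rpow_pos_of_pos (hpos 0) c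
  have hq1 : q < 1 := Real.rpow_lt_one (hpos 0).le h0 hc
  have key : ∀ j, hh j ≤ hh 0 ∧ hh j ≤ q ^ j := by
    intro j
    induction j with
    | zero => exact ⟨le_rfl, by simpa using h0.le⟩
    | succ j ih =>
      have h1 : hh j ^ c ≤ q := Real.rpow_le_rpow (hpos j).le ih.1 hc.le
      have h2 : hh (j + 1) ≤ hh j * q := by
        refine (hrec j).trans ?_
        rw [Real.rpow_add (hpos j), Real.rpow_one]
        have := (hpos j).le
        gcongr
      have h3 := (hpos j).le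
      constructor
      · calc hh (j + 1) ≤ hh j * q := h2
          _ ≤ hh j * 1 := by gcongr
          _ ≤ hh 0 := by rw [mul_one]; exact ih.1
      · calc hh (j + 1) ≤ hh j * q := h2
          _ ≤ q ^ j * q := by gcongr; exact ih.2
          _ = q ^ (j + 1) := (pow_succ q j).symm
  exact ⟨hq0, hq1, fun j => (key j).2⟩

/-- **(S2)** the radii stay away from zero: the limit of the references carries the measure -/
theorem onGraph_of_radii (E : Type*) [NormedAddCommGroup E] [InnerProductSpace ℝ E]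
    [FiniteDimensional ℝ E] [MeasurableSpace E] [BorelSpace E] (m n : ℕ) : ∃ ε₁ : ℝ, 0 < ε₁ ∧
    ∀ {T : Submodule ℝ E} (F : Frame m n T) {G : Set E} {H : ℝ} {ν : Measure E}
      {P : E → E →L[ℝ] E}, FV.CylStat m T G H ν P → ball 0 (3 / 16) ⊆ G →
      ∀ {u : ℕ → Fin n → REF.E m → ℝ} {r hh : ℕ → ℝ} {ρ c σ : ℝ}, 0 < ρ → (∀ j, ρ ≤ r j) →
      (∀ j, r j ≤ 3 / 16) → (∀ j, Refe ε₁ (r j) (u j)) →
      (∀ j, hh j = hN m T (F.lift (u j)) ν (r j)) → (∀ j, 0 < hh j) → hh 0 < 1 → 0 < c →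
      (∀ j, hh (j + 1) ≤ hh j ^ (1 + c)) → 0 < σ →
      (∀ j a x, |u (j + 1) a x - u j a x| ≤ hh j ^ σ) →
      ∃ w : E → E, ALL.OnGraph T ν ρ w := by
  obtain ⟨ε, hε, hmain⟩ := ALL.onGraph_of_seq (E := E) m n
  refine ⟨ε, hε, ?_⟩
  intro T F G H ν P hC hG u r hh ρ c σ hρ hρr hr1 hu hh_eq hpos h0 hc hrec hσ hd
  obtain ⟨hq0, hq1, hgeo⟩ := geom_of_pow hpos h0 hc hrec
  set q := hh 0 ^ c with hq
  have hρ1 : ρ ≤ 3 / 16 := (hρr 0).trans (hr1 0)
  have hsum : Summable fun j => hh j ^ σ := by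
    have hqs : q ^ σ < 1 := Real.rpow_lt_one hq0.le hq1 hσ
    refine Summable.of_nonneg_of_le (fun j => Real.rpow_nonneg (hpos j).le _) (fun j => ?_)
      (summable_geometric_of_lt_one (Real.rpow_nonneg hq0.le σ) hqs)
    calc hh j ^ σ ≤ (q ^ j) ^ σ := Real.rpow_le_rpow (hpos j).le (hgeo j) hσ.le
      _ = (q ^ σ) ^ j := by
        rw [← Real.rpow_natCast, ← Real.rpow_natCast, ← Real.rpow_mul hq0.le,
          ← Real.rpow_mul hq0.le, mul_comm]
  have hrefe : ∀ j, Refe ε ρ (u j) := fun j =>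
    ⟨(hu j).smooth, (hu j).supp, (hu j).small, fun a x hx => (hu j).exact a x
      (hx.trans_le (hρr j))⟩
  have hlim : Tendsto (fun j => hE T (F.lift (u j)) ν ρ) atTop (𝓝 0) := by
    refine squeeze_zero (fun j => ALL.hE_nonneg _ _ _ _) (fun j => ?_)
      (tendsto_pow_atTop_nhds_zero_of_lt_one hq0.le hq1)
    have hrj : 0 < r j := hρ.trans_le (hρr j)
    have h1 : hE T (F.lift (u j)) ν ρ ≤ hE T (F.lift (u j)) ν (r j) :=
      ALL.hE_mono hC F (fun a => ((hu j).smooth a).continuous) (hu j).supp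
        ((ball_subset_ball (hr1 j)).trans hG) (hρr j)
    have h2 : hE T (F.lift (u j)) ν (r j) = r j ^ (m + 2) * hh j := by
      rw [hh_eq j, hN]
      field_simp
    have h3 : r j ^ (m + 2) ≤ 1 := pow_le_one₀ hrj.le (by linarith [hr1 j])
    calc _ ≤ r j ^ (m + 2) * hh j := h1.trans h2.le
      _ ≤ 1 * hh j := by
        have := (hpos j).le
        gcongr
      _ ≤ q ^ j := by rw [one_mul]; exact hgeo j
  obtain ⟨v, -, hv⟩ := hmain F hC hρ hρ1 ((ball_subset_ball hρ1).trans hG) hsum hrefe hd hlim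
  exact ⟨_, hv⟩

/-- the increments of one window, order zero -/
lemma Nxt.abs_le {Q : ℕ} {T : Submodule ℝ E} {F : Frame m n T} {ν : Measure E}
    {P : E → E →L[ℝ] E} {K : Set E} {δ : ℝ → ℝ} {X : Exps} {C C₅ ε : ℝ}
    {u : Fin n → REF.E m → ℝ} {r h : ℝ} {ut u' : Fin n → REF.E m → ℝ} {r' : ℝ}
    (hN : Nxt m n Q T F ν P K δ X C C₅ ε u r h ut u' r') (hr : r ≤ 1) (hh : 0 ≤ h) (a : Fin n)
    (x : REF.E m) : |u' a x - u a x| ≤ h ^ (1 / 2 - X.e) := by
  have h1 := hN.size a 0 (Nat.zero_le _) x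
  rw [norm_iteratedFDeriv_zero, Real.norm_eq_abs, pow_zero, mul_one] at h1
  have h2 : 0 ≤ h ^ (1 / 2 - X.e) := Real.rpow_nonneg hh _
  calc _ ≤ r * h ^ (1 / 2 - X.e) := h1
    _ ≤ 1 * h ^ (1 / 2 - X.e) := by gcongr
    _ = _ := one_mul _

/-- an antitone sequence of positive numbers tends to zero or stays above a positive number -/
lemma tendsto_zero_or {r : ℕ → ℝ} (hpos : ∀ j, 0 < r j) (hanti : ∀ j, r (j + 1) ≤ r j) :
    Tendsto r atTop (𝓝 0) ∨ ∃ ρ > 0, ∀ j, ρ ≤ r j := by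
  have ha : Antitone r := antitone_nat_of_succ_le hanti
  have hb : BddBelow (range r) := ⟨0, by rintro _ ⟨j, rfl⟩; exact (hpos j).le⟩
  have hlim := tendsto_atTop_ciInf ha hb
  rcases eq_or_lt_of_le (le_ciInf fun j => (hpos j).le : 0 ≤ ⨅ j, r j) with h | h
  · exact Or.inl (by rwa [← h] at hlim)
  · exact Or.inr ⟨_, h, fun j => ciInf_le hb j⟩

/-- **STOP for the windows sequence**: an infinite sequence of windows whose radii do not tend to
zero -/
theorem stop_of_windows (E : Type*) [NormedAddCommGroup E] [InnerProductSpace ℝ E]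
    [FiniteDimensional ℝ E] [MeasurableSpace E] [BorelSpace E] (m n : ℕ) : ∃ ε₁ : ℝ, 0 < ε₁ ∧
    ∀ (Q : ℕ) {T : Submodule ℝ E} (F : Frame m n T) {G : Set E} {H : ℝ} {ν : Measure E}
      {P : E → E →L[ℝ] E} {K : Set E} {δ : ℝ → ℝ} {X : Exps} {C C₅ ε : ℝ},
      FV.CylStat m T G H ν P → ball 0 (3 / 16) ⊆ G → 0 < X.c → X.e < 1 / 2 → ε ≤ ε₁ →
      ∀ {u ut : ℕ → Fin n → REF.E m → ℝ} {r hh : ℕ → ℝ}, (∀ j, 0 < r j) →
      (∀ j, r (j + 1) ≤ r j) → (∀ j, r j ≤ 3 / 16) → (∀ j, Refe ε (r j) (u j)) →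
      (∀ j, hh j = hN m T (F.lift (u j)) ν (r j)) → (∀ j, 0 < hh j) → hh 0 < 1 →
      (∀ j, Nxt m n Q T F ν P K δ X C C₅ ε (u j) (r j) (hh j) (ut j) (u (j + 1)) (r (j + 1))) →
      Tendsto r atTop (𝓝 0) ∨ ∃ ρ > 0, ∃ w : E → E, ALL.OnGraph T ν ρ w := by
  obtain ⟨ε₁, hε₁, hmain⟩ := onGraph_of_radii E m n
  refine ⟨ε₁, hε₁, ?_⟩
  intro Q T F G H ν P K δ X C C₅ ε hC hG hc he hε u ut r hh hr hanti hr1 hu hheq hpos h0 hn
  rcases tendsto_zero_or hr hanti with h | ⟨ρ, hρ, hρr⟩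
  · exact Or.inl h
  · refine Or.inr ⟨ρ, hρ, hmain F hC hG hρ hρr hr1 (fun j => ⟨(hu j).smooth, (hu j).supp,
      fun a k hk x => ((hu j).small a k hk x).trans hε, (hu j).exact⟩) hheq hpos h0 hc
      (fun j => ?_) (sub_pos.2 he) fun j a x => (hn j).abs_le (by linarith [hr1 j]) (hpos j).le a x⟩
    rw [hheq (j + 1)]
    exact (hn j).h_next

end Vale.Agent.P214.WSEQ
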