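import Vale.Agent.P214.WSEQ.One
import Vale.Agent.P214.WSEQ.Stop
import Vale.Agent.P214.WSEQ.W6
import Vale.Agent.P214.STR.Main

/-! # P214, block WINDOWS: the windows sequence -/

open Set Filter Topology MeasureTheory Metric
open scoped RealInnerProductSpace ENNReal ContDiff

set_option linter.all false

namespace Vale.Agent.P214.WSEQ

open WIN STR

variable {m n : ℕ} {E : Type*} [NormedAddCommGroup E] [InnerProductSpace ℝ E]
  [FiniteDimensional ℝ E] [MeasurableSpace E] [BorelSpace E]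
  {Q : ℕ} {T : Submodule ℝ E} {ν : Measure E} {P : E → E →L[ℝ] E} {K Bad : Set E} {δ : ℝ → ℝ}
  {F : Frame m n T} {τ : ℝ}

lemma Loc.mono (hL : Loc m Q T ν P K δ τ) {τ' : ℝ} (h : τ ≤ τ') : Loc m Q T ν P K δ τ' :=
  { hL with
    int := fun r hr hr3 => intCyl_mono (hL.int r hr hr3) (by gcongr) h
    exc := fun r hr hr3 => (hL.exc r hr hr3).trans (by gcongr)
    δ_le := fun t ht ht3 => (hL.δ_le t ht ht3).trans h }

lemma Nxt.mono {X : Exps} {C C₅ ε ε' : ℝ} {u ut u' : Fin n → REF.E m → ℝ} {r h r' : ℝ}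
    (hN : Nxt m n Q T F ν P K δ X C C₅ ε u r h ut u' r') (hε : ε ≤ ε') :
    Nxt m n Q T F ν P K δ X C C₅ ε' u r h ut u' r' :=
  { hN with
    refe := hN.refe.weaken hε le_rfl
    bad := by
      obtain ⟨Bad, h1, h2⟩ := hN.bad
      exact ⟨Bad, ⟨h1.R_le, h1.le_R, h1.meas, h1.small, fun x hx hxB s hs hxs =>
        (h1.good x hx hxB s hs hxs).trans (by gcongr)⟩, h2⟩ }

/-- the initial height -/
lemma init_height (hL : Loc m Q T ν P K δ τ) (F : Frame m n T) (hτ : 0 ≤ τ) (hτ1 : τ ≤ 1) :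
    hN m T (F.lift (0 : Fin n → REF.E m → ℝ)) ν (3 / 16) ≤ τ ^ 2 * (Q * Skel.om m + 1) := by
  have hI := hL.int (3 / 16) (by norm_num) (by norm_num)
  have hfin := hI.cyl.fin
  have hlift : ∀ y : E, F.lift (0 : Fin n → REF.E m → ℝ) y = 0 := fun y => by
    unfold Frame.lift; simp
  have h1 : hE T (F.lift (0 : Fin n → REF.E m → ℝ)) ν (3 / 16)
      ≤ (τ * (3 / 16)) ^ 2 * ν.real (Skel.cylSet T 0 (3 / 16)) := by
    unfold hE
    refine (le_abs_self _).trans ?_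
    rw [← Real.norm_eq_abs]
    refine norm_setIntegral_le_of_norm_le_const_ae' (measure_lt_top _ _) ?_
    filter_upwards [hI.cyl.slab] with y hy hyC
    have h2 := hy hyC
    rw [Real.norm_of_nonneg (sq_nonneg _)]
    unfold KMS.rel
    rw [hlift, sub_zero, FV.co_apply]
    gcongr
  have h2 : ν.real (Skel.cylSet T 0 (3 / 16)) ≤ (Q * Skel.om m + 1) * (3 / 16) ^ m := by
    have h3 := (abs_le.1 hI.mass).2
    have h4 : τ * (3 / 16 : ℝ) ^ m ≤ 1 * (3 / 16) ^ m := by gcongr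
    linarith
  unfold hN
  rw [inv_mul_le_iff₀ (by positivity)]
  calc hE T (F.lift (0 : Fin n → REF.E m → ℝ)) ν (3 / 16)
      ≤ (τ * (3 / 16)) ^ 2 * ((Q * Skel.om m + 1) * (3 / 16) ^ m) := h1.trans (by gcongr)
    _ = _ := by ring

/-- the zero reference is exact -/
lemma Mop_zero (a : Fin n) (x : REF.E m) : REF.Mop (0 : Fin n → REF.E m → ℝ) a x = 0 := by
  unfold REF.Mop
  have h0 : ∀ j, (REF.pd j (0 : REF.E m → ℝ)) = 0 := by
    intro j
    funext x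
    simp [REF.pd]
  have h1 : ∀ i j, REF.pd i (REF.pd j ((0 : Fin n → REF.E m → ℝ) a)) x = 0 := by
    intro i j
    rw [Pi.zero_apply, h0, h0]; rfl
  simp only [h1, mul_zero, Finset.sum_const_zero]

lemma refe_zero {ε : ℝ} (hε : 0 ≤ ε) (r : ℝ) : Refe ε r (0 : Fin n → REF.E m → ℝ) where
  smooth a := contDiff_const
  supp a x hx := rfl
  small a k hk x := by
    have h1 : iteratedFDeriv ℝ k ((0 : Fin n → REF.E m → ℝ) a) = 0 := by
      rw [Pi.zero_apply]; exact iteratedFDeriv_zero_fun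
    rw [h1]; simpa using hε
  exact a x hx := Mop_zero a x

/-- **[WINDOWS]** -/
theorem windows (E : Type*) [NormedAddCommGroup E] [InnerProductSpace ℝ E]
    [FiniteDimensional ℝ E] [MeasurableSpace E] [BorelSpace E] {m n Q : ℕ} (hm : 1 ≤ m)
    (hQ : 1 ≤ Q) (hStep : StepStmt E m n Q) : WindowsStmt E m n Q := by
  obtain ⟨c₀, hc₀, hc₀8, hS⟩ := stepR hStep
  obtain ⟨X, hX, rfl⟩ := exists_exps m hc₀ hc₀8
  have hSt : StepAt E m n Q X.c₀ X.c₁ := fun τ hτ => hS X.c₁ hX.c₁_pos hX.c₁_le τ hτ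
  obtain ⟨C, C₅, hC, hC₅, hnext⟩ := exists_next hm hQ hX hSt
  refine ⟨X, hX, C, C₅, hC, hC₅, fun ε hε => ?_⟩
  obtain ⟨εa, hεa, hacc⟩ := accStmt (E := E) (n := n) hQ hX
  obtain ⟨εs, hεs, hstop⟩ := stop_of_windows E m n
  obtain ⟨ε', hε'0, e1, e2, e3, e4⟩ : ∃ ε' : ℝ, 0 < ε' ∧ ε' ≤ ε ∧ ε' ≤ εa ∧ ε' ≤ εs ∧ ε' ≤ 1 / 2 :=
    ⟨min (min ε εa) (min εs (1 / 2)), by positivity, (min_le_left _ _).trans (min_le_left _ _),
      (min_le_left _ _).trans (min_le_right _ _), (min_le_right _ _).trans (min_le_left _ _),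
      (min_le_right _ _).trans (min_le_right _ _)⟩
  obtain ⟨εN, ε₁, τ, hεN, hεN', hε₁, hε₁', hε₁N, hτ, hτε, hsma, hmain⟩ := hnext ε' ε' hε'0 hε'0
  have hom : (0:ℝ) ≤ Q * Skel.om m + 1 := by
    have := W5.om_pos m; positivity
  have hom' : (0:ℝ) < Q * Skel.om m + 1 := by
    have := W5.om_pos m; positivity
  -- smallness of the first height
  obtain ⟨b, hb, b1, b2, b3⟩ : ∃ b : ℝ, 0 < b ∧ b ≤ ε₁ ∧ b ≤ (3 / 16) ^ (8 * sW m) ∧
      b ≤ (εN / 2) ^ (8:ℕ) :=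
    ⟨min ε₁ (min ((3 / 16) ^ (8 * sW m)) ((εN / 2) ^ (8:ℕ))), by positivity, min_le_left _ _,
      (min_le_right _ _).trans (min_le_left _ _), (min_le_right _ _).trans (min_le_right _ _)⟩
  obtain ⟨τ', hτ'0, s1, s2, s3⟩ : ∃ τ' : ℝ, 0 < τ' ∧ τ' ≤ τ ∧ τ' ≤ 1 ∧
      τ' ≤ b / (Q * Skel.om m + 1) :=
    ⟨min τ (min 1 (b / (Q * Skel.om m + 1))), by positivity, min_le_left _ _,
      (min_le_right _ _).trans (min_le_left _ _), (min_le_right _ _).trans (min_le_right _ _)⟩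
  refine ⟨τ', hτ'0, s1.trans (hτε.trans e1), ?_⟩
  intro T F ν P K δ hL
  by_cases hG : ∃ ρ > 0, ∃ w : E → E, ALL.OnGraph T ν ρ w
  · exact Or.inl hG
  right
  have hI38 := hL.int (3 / 8) (by norm_num) le_rfl
  -- the first state
  have hh0 : hN m T (F.lift (0 : Fin n → REF.E m → ℝ)) ν (3 / 16) ≤ b := by
    refine (init_height hL F hτ'0.le s2).trans ?_
    have h1 : τ' * (Q * Skel.om m + 1) ≤ b := by rwa [le_div_iff₀ hom'] at s3
    calc τ' ^ 2 * (Q * Skel.om m + 1) = τ' * (τ' * (Q * Skel.om m + 1)) := by ring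
      _ ≤ 1 * b := mul_le_mul s2 h1 (by positivity) zero_le_one
      _ = b := one_mul b
  have hnn0 : 0 ≤ hN m T (F.lift (0 : Fin n → REF.E m → ℝ)) ν (3 / 16) := hN_nonneg (by norm_num)
  have hpos0 : 0 < hN m T (F.lift (0 : Fin n → REF.E m → ℝ)) ν (3 / 16) := by
    refine lt_of_le_of_ne hnn0 fun h0 => hG ⟨3 / 16, by norm_num, _,
      onGraph_of_hN_zero F hI38.cyl (by norm_num) (ball_subset_ball (by norm_num))
        (refe_zero (ε := 0) le_rfl (3 / 16)) h0.symm⟩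
  have hInv0 : Inv m n T F ν εN ε₁ (0 : Fin n → REF.E m → ℝ) (3 / 16)
      (hN m T (F.lift (0 : Fin n → REF.E m → ℝ)) ν (3 / 16)) := by
    refine ⟨refe_zero ?_ _, fun a => rfl, by norm_num, le_rfl, rfl, hpos0, hh0.trans b1,
      hh0.trans b2⟩
    have h1 : (hN m T (F.lift (0 : Fin n → REF.E m → ℝ)) ν (3 / 16)) ^ (1 / 8 : ℝ) ≤ εN / 2 := by
      calc (hN m T (F.lift (0 : Fin n → REF.E m → ℝ)) ν (3 / 16)) ^ (1 / 8 : ℝ)
          ≤ ((εN / 2) ^ (8:ℕ)) ^ (1 / 8 : ℝ) :=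
            Real.rpow_le_rpow hnn0 (hh0.trans b3) (by norm_num)
        _ = εN / 2 := by
            rw [← Real.rpow_natCast, ← Real.rpow_mul (by positivity)]
            norm_num
    linarith
  -- the recursion
  have key : ∀ s : {p : (Fin n → REF.E m → ℝ) × ℝ × ℝ // Inv m n T F ν εN ε₁ p.1 p.2.1 p.2.2},
      ∃ (ut : Fin n → REF.E m → ℝ)
        (s' : {p : (Fin n → REF.E m → ℝ) × ℝ × ℝ // Inv m n T F ν εN ε₁ p.1 p.2.1 p.2.2}),
        Nxt m n Q T F ν P K δ X C C₅ ε' s.1.1 s.1.2.1 s.1.2.2 ut s'.1.1 s'.1.2.1 := by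
    rintro ⟨⟨u, r, h⟩, hs⟩
    obtain ⟨ut, u', r', h1, h2, h3, h4⟩ := hmain T F ν P K δ (hL.mono s1) u r h hs
    rcases h4 with h4 | h4
    · exfalso
      have hr'3 : r' ≤ 3 / 16 := by
        have a1 := h1.r_le
        have a2 := hs.r_le
        have a3 := hs.r_pos
        have a4 := (hsma h hs.h_pos hs.h_le).th_pos
        have a5 : r * (1 - 12 * th h) ≤ r := by nlinarith
        have a6 : r ≤ 3 / 16 := a2
        linarith
      exact hG ⟨r', h2, _, onGraph_of_hN_zero F hI38.cyl h2 (ball_subset_ball (by linarith)) h3 h4⟩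
    · exact ⟨ut, ⟨⟨u', r', _⟩, h4⟩, h1⟩
  choose f g hfg using key
  set S : ℕ → {p : (Fin n → REF.E m → ℝ) × ℝ × ℝ // Inv m n T F ν εN ε₁ p.1 p.2.1 p.2.2} :=
    fun j => Nat.rec ⟨⟨0, 3 / 16, _⟩, hInv0⟩ (fun _ s => g s) j with hSdef
  have hinv : ∀ j, Inv m n T F ν εN ε₁ (S j).1.1 (S j).1.2.1 (S j).1.2.2 := fun j => (S j).2
  have hnx : ∀ j, Nxt m n Q T F ν P K δ X C C₅ ε' (S j).1.1 (S j).1.2.1 (S j).1.2.2 (f (S j))
      (S (j + 1)).1.1 (S (j + 1)).1.2.1 := fun j => hfg (S j)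
  have hsm : ∀ j, Sma X 1 ε' (S j).1.2.2 := fun j => hsma _ (hinv j).h_pos (hinv j).h_le
  have href : ∀ j, Refe ε' (S j).1.2.1 (S j).1.1 := fun j => (hinv j).refe.weaken (by
    have : 0 ≤ (S j).1.2.2 ^ (1 / 8 : ℝ) := Real.rpow_nonneg (hinv j).h_pos.le _
    linarith) le_rfl
  have hanti : ∀ j, (S (j + 1)).1.2.1 ≤ (S j).1.2.1 := fun j => by
    have a1 := (hnx j).r_le
    have a3 := (hinv j).r_pos
    have a4 := (hsm j).th_pos
    nlinarith
  have hlim : Tendsto (fun j => (S j).1.2.1) atTop (𝓝 0) := by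
    rcases hstop Q F (u := fun j => (S j).1.1) (ut := fun j => f (S j))
      (r := fun j => (S j).1.2.1) (hh := fun j => (S j).1.2.2) hI38.cyl
      (ball_subset_ball (by norm_num)) hX.c_pos
      (by have := hX.e_le; have := hX.c_le; linarith) e3 (fun j => (hinv j).r_pos) hanti
      (fun j => (hinv j).r_le) href (fun j => (hinv j).h_eq) (fun j => (hinv j).h_pos)
      (lt_of_le_of_lt (hsm 0).le_b (by linarith)) hnx with h | h
    · exact h
    · exact absurd h hG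
  exact ⟨{
    u := fun j => (S j).1.1
    ut := fun j => f (S j)
    r := fun j => (S j).1.2.1
    h := fun j => (S j).1.2.2
    u_zero := rfl
    r_zero := rfl
    r_pos := fun j => (hinv j).r_pos
    h_eq := fun j => (hinv j).h_eq
    h_pos := fun j => (hinv j).h_pos
    h_le := fun j => (hsm j).le_b.trans e1
    h_pow := fun j => (hinv j).h_pow
    th_le := fun j => (hsm j).th_le
    refe := fun j => (href j).weaken e1 le_rfl
    nxt := fun j => (hnx j).mono e1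
    acc := fun j => hacc T F ν P K δ C C₅ ε' (S j).1.1 (f (S j)) (S (j + 1)).1.1 (f (S (j + 1)))
      (S (j + 2)).1.1 (S j).1.2.1 (S j).1.2.2 (S (j + 1)).1.2.1 (S (j + 1)).1.2.2
      (S (j + 2)).1.2.1 ⟨_, _, hI38⟩ e2 (hinv j).r_pos (hinv j).r_le (hinv j).h_pos
      ((hsm j).le_b.trans e2) (hinv (j + 1)).h_pos
      ((hinv (j + 1)).h_eq.le.trans (hnx j).h_next) (href j) (hnx j) (hnx (j + 1))
    r_lim := hlim }⟩

end Vale.Agent.P214.WSEQ
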