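import Vale.Agent.P214.WSEQ.Exps
import Vale.Agent.P214.STR.Cut
import Vale.Agent.P214.ALL.Frame
import Vale.Agent.P214.WIN.StepOne

/-! # P214, block WINDOWS: translation of the new reference -/

open Set Filter Topology MeasureTheory Metric
open scoped RealInnerProductSpace ENNReal ContDiff

set_option linter.all false

namespace Vale.Agent.P214.WSEQ

open WIN STR

variable {m n : ℕ}

/-- subtract the value at the origin, with a cut-off -/
noncomputable def trl (ut : Fin n → REF.E m → ℝ) (a : Fin n) (x : REF.E m) : ℝ :=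
  ut a x - bc m x * ut a 0

lemma trl_near (ut : Fin n → REF.E m → ℝ) (a : Fin n) {x : REF.E m} (hx : ‖x‖ ≤ 9 / 32) :
    trl ut a x = ut a x - ut a 0 := by
  unfold trl; rw [bc_one hx, one_mul]

lemma trl_zero (ut : Fin n → REF.E m → ℝ) (a : Fin n) : trl ut a 0 = 0 := by
  rw [trl_near ut a (by rw [norm_zero]; norm_num), sub_self]

lemma trl_far (ut : Fin n → REF.E m → ℝ) (a : Fin n) {x : REF.E m} (hx : 3 / 8 ≤ ‖x‖) :
    trl ut a x = ut a x := by
  unfold trl; rw [bc_zero hx, zero_mul, sub_zero]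

lemma contDiff_trl {ut : Fin n → REF.E m → ℝ} (h : ∀ a, ContDiff ℝ ∞ (ut a)) (a : Fin n) :
    ContDiff ℝ ∞ (trl ut a) :=
  (h a).sub (((bc m).contDiff (n := (⊤ : ℕ∞))).mul contDiff_const)

lemma Mop_trl {ut : Fin n → REF.E m → ℝ} {x : REF.E m} (hx : ‖x‖ < 9 / 32) (a : Fin n) :
    REF.Mop (trl ut) a x = REF.Mop ut a x := by
  have h1 : ∀ b, trl ut b =ᶠ[𝓝 x] fun y => ut b y + -ut b 0 := by
    intro b
    have h2 : ∀ᶠ y in 𝓝 x, ‖y‖ < 9 / 32 :=
      continuous_norm.continuousAt.eventually (gt_mem_nhds hx)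
    filter_upwards [h2] with y hy
    rw [trl_near ut b hy.le]; ring
  rw [Mop_congr h1 a]
  exact Mop_add_const ut (fun b => -ut b 0) a x

/-- **the translated reference** -/
theorem exists_trl (m n : ℕ) : ∃ K : ℝ, 1 ≤ K ∧ ∀ (u ut : Fin n → REF.E m → ℝ)
    (r ρ B ε₁ : ℝ), Refe ε₁ r u → (∀ a, u a 0 = 0) → 0 < r → r ≤ 3 / 16 → ρ ≤ 9 / 32 →
    (∀ a, ContDiff ℝ ∞ (ut a)) → (∀ a x, r ≤ ‖x‖ → ut a x = u a x) →
    (∀ a, ∀ k ≤ sW m, ∀ x, ‖iteratedFDeriv ℝ k (fun x => ut a x - u a x) x‖ ≤ r * r⁻¹ ^ k * B) →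
    0 ≤ B → (∀ a x, ‖x‖ < ρ → REF.Mop ut a x = 0) →
    (∀ a, ∀ k ≤ sW m, ∀ x, ‖iteratedFDeriv ℝ k (fun x => trl ut a x - u a x) x‖
      ≤ r * r⁻¹ ^ k * (K * B)) ∧
    Refe (ε₁ + r⁻¹ ^ sW m * (K * B)) ρ (trl ut) ∧ Refe (ε₁ + r⁻¹ ^ sW m * (K * B)) ρ ut := by
  obtain ⟨K, hK1, hK⟩ := exists_bc_bound m
  refine ⟨1 + K, by linarith, ?_⟩
  intro u ut r ρ B ε₁ hu hu0 hr hr3 hρ hs hout hsz hB hex
  have hr1 : r ≤ 1 := by linarith
  have hri : 1 ≤ r⁻¹ := (one_le_inv₀ hr).2 hr1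
  have hpk : ∀ k : ℕ, (1:ℝ) ≤ r⁻¹ ^ k := fun k => one_le_pow₀ hri
  have hc : ∀ (k : ℕ) (v : REF.E m → ℝ) (x : REF.E m), ContDiff ℝ ∞ v → ContDiffAt ℝ k v x :=
    fun k v x hv => (hv.of_le (by exact_mod_cast le_top)).contDiffAt
  have h0 : ∀ a, |ut a 0| ≤ r * B := by
    intro a
    have h1 := hsz a 0 (Nat.zero_le _) 0
    rw [pow_zero, mul_one, norm_iteratedFDeriv_zero, hu0, sub_zero, Real.norm_eq_abs] at h1
    exact h1
  have hbc : ContDiff ℝ ∞ (bc m : REF.E m → ℝ) := (bc m).contDiff (n := (⊤ : ℕ∞))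
  have hsz' : ∀ a, ∀ k ≤ sW m, ∀ x, ‖iteratedFDeriv ℝ k (fun x => trl ut a x - u a x) x‖
      ≤ r * r⁻¹ ^ k * ((1 + K) * B) := by
    intro a k hk x
    have e1 : (fun x => trl ut a x - u a x)
        = fun x => (ut a x - u a x) + (-ut a 0) • (bc m x) := by
      funext x; unfold trl; rw [smul_eq_mul]; ring
    rw [e1, fun_iteratedFDeriv_add_apply (hc k _ x ((hs a).sub (hu.smooth a)))
      (hc k _ x (hbc.const_smul _)), iteratedFDeriv_const_smul_apply' (hc k _ x hbc)]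
    refine (norm_add_le _ _).trans ?_
    rw [norm_smul, norm_neg, Real.norm_eq_abs]
    have h1 := hsz a k hk x
    have h2 : |ut a 0| * ‖iteratedFDeriv ℝ k (bc m) x‖ ≤ r * B * K :=
      mul_le_mul (h0 a) (hK k hk x) (norm_nonneg _) (by positivity)
    have h3 : r * B * K ≤ r * r⁻¹ ^ k * (K * B) := by
      have : 0 ≤ r * (K * B) := by positivity
      nlinarith [hpk k]
    calc _ ≤ r * r⁻¹ ^ k * B + r * r⁻¹ ^ k * (K * B) := add_le_add h1 (h2.trans h3)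
      _ = _ := by ring
  have hbd : ∀ k ≤ sW m, r * r⁻¹ ^ k * ((1 + K) * B) ≤ r⁻¹ ^ sW m * ((1 + K) * B) := by
    intro k hk
    have h1 : r * r⁻¹ ^ k ≤ 1 * r⁻¹ ^ sW m :=
      mul_le_mul hr1 (pow_le_pow_right₀ hri hk) (by positivity) zero_le_one
    rw [one_mul] at h1
    exact mul_le_mul_of_nonneg_right h1 (by positivity)
  have hKB : B ≤ (1 + K) * B := by nlinarith
  refine ⟨hsz', ?_, ?_⟩
  · refine hu.change (contDiff_trl hs) (fun a x hx => ?_) (fun a k hk x =>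
      (hsz' a k hk x).trans (hbd k hk)) (fun a x hx => ?_) le_rfl
    · rw [trl_far ut a hx, hout a x (by linarith)]
    · rw [Mop_trl (by linarith)]; exact hex a x hx
  · refine hu.change hs (fun a x hx => hout a x (by linarith)) (fun a k hk x =>
      (hsz a k hk x).trans ((mul_le_mul_of_nonneg_left hKB (by positivity)).trans (hbd k hk)))
      hex le_rfl

end Vale.Agent.P214.WSEQ
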