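import Vale.Agent.P214.WSEQ.Arith
import Vale.Agent.P214.WSEQ.Trans
import Vale.Agent.P214.W5.OneStep

/-! # P214, block WINDOWS: one step of the sequence -/

open Set Filter Topology MeasureTheory Metric
open scoped RealInnerProductSpace ENNReal ContDiff

set_option linter.all false

namespace Vale.Agent.P214.WSEQ

open WIN STR

variable {m n : ℕ} {E : Type*} [NormedAddCommGroup E] [InnerProductSpace ℝ E]
  [FiniteDimensional ℝ E] [MeasurableSpace E] [BorelSpace E]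
  {Q : ℕ} {T : Submodule ℝ E} {ν : Measure E} {P : E → E →L[ℝ] E} {K Bad : Set E} {δ : ℝ → ℝ}
  {F : Frame m n T} {τ : ℝ}

/-- the data of (W5) at every radius -/
lemma Loc.dat (hL : Loc m Q T ν P K δ τ) (hQ : 1 ≤ Q) {τ' : ℝ} (hτ : τ ≤ τ') (hτ1 : τ ≤ 1)
    {r : ℝ} (hr : 0 < r) (hr3 : r ≤ 3 / 16) :
    W5.Dat m Q T ν P K δ (Q * Skel.om m + 1) τ' r where
  r_pos := hr
  int := ⟨_, intCyl_mono (hL.int (2 * r) (by positivity) (by linarith)) le_rfl hτ⟩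
  exc := (hL.exc (2 * r) (by positivity) (by linarith)).trans (by gcongr)
  cpt := hL.cpt
  ratio z hz hzr := ⟨(3 / 16 - ‖T.starProjection z‖) / 2, by linarith, fun s hs hs2 =>
    hL.high z hz s hs (by linarith)⟩
  mass t ht htr := by
    have h2 := (hL.int t ht (by linarith)).mass
    have h3 := (abs_le.1 h2).2
    have h4 : τ * t ^ m ≤ 1 * t ^ m := by gcongr
    linarith
  δ_nn t ht htr := hL.δ_nn t ht (by linarith)
  dens t ht htr := hL.dens t ht (by linarith)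

lemma stepOut_mono {u u' : Fin n → REF.E m → ℝ} {c₀ c₁ τ' r h θ : ℝ}
    (hO : StepOut m n Q T F u u' c₀ c₁ τ r h θ ν P) (hτ : τ ≤ τ') :
    StepOut m n Q T F u u' c₀ c₁ τ' r h θ ν P := by
  obtain ⟨Bad, h1, h2, h3, h4⟩ := hO.points
  exact ⟨hO.smooth, hO.outside, hO.size, hO.exact, hO.weak, Bad, h1, h2, fun x hx hxB s hs hxs =>
    (h3 x hx hxB s hs hxs).trans (by gcongr), h4⟩

/-- invariant of the recursion -/
structure Inv (m n : ℕ) (T : Submodule ℝ E) (F : Frame m n T) (ν : Measure E) (ε ε₁ : ℝ)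
    (u : Fin n → REF.E m → ℝ) (r h : ℝ) : Prop where
  refe : Refe (ε - 2 * h ^ (1 / 8 : ℝ)) r u
  zero : ∀ a, u a 0 = 0
  r_pos : 0 < r
  r_le : r ≤ 3 / 16
  h_eq : h = hN m T (F.lift u) ν r
  h_pos : 0 < h
  h_le : h ≤ ε₁
  h_pow : h ≤ r ^ (8 * sW m)

lemma hN_nonneg {w : E → E} {t : ℝ} (ht : 0 < t) : 0 ≤ hN m T w ν t :=
  mul_nonneg (by positivity) (integral_nonneg fun _ => sq_nonneg _)

/-- STEP-R for fixed exponents -/
def StepAt (E : Type*) [NormedAddCommGroup E] [InnerProductSpace ℝ E] [FiniteDimensional ℝ E]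
    [MeasurableSpace E] [BorelSpace E] (m n Q : ℕ) (c₀ c₁ : ℝ) : Prop :=
  ∀ τ : ℝ, 0 < τ → ∃ ε : ℝ, 0 < ε ∧ ε ≤ 1 ∧
    ∀ (T : Submodule ℝ E) (F : Frame m n T) (u : Fin n → REF.E m → ℝ) (r h θ : ℝ)
      (ν : Measure E) (P : E → E →L[ℝ] E),
    Refe ε r u → (∀ a, u a 0 = 0) → 0 < r → r ≤ 3 / 16 →
    Skel.IntCyl m Q T 0 (2 * r) (ε * r) ε ν P → Skel.exc T ν P 0 (2 * r) ≤ ε * r ^ m →
    h = hN m T (F.lift u) ν r → 0 < h → h ≤ ε → h ^ c₁ ≤ θ → θ ≤ 1 / 120 →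
    (∀ (ψ : REF.E m → ℝ) (M : ℝ), Continuous ψ → (∀ x, r * (1 - 5 * θ) ≤ ‖x‖ → ψ x = 0) →
      (∀ x, |ψ x| ≤ M) → |∫ y, ψ (F.xc y) ∂ν - Q * ∫ x, ψ x * √(REF.gm u x).det ∂μH[m]|
        ≤ r ^ m * h ^ (1 / 2 - c₁ / c₀) * M) ∧
    ∃ u' : Fin n → REF.E m → ℝ, StepOut m n Q T F u u' c₀ c₁ τ r h θ ν P


lemma mul_weaken {a b c t : ℝ} (ha : 0 ≤ a) (hab : a ≤ b * t) (hb : 0 < b) (hbc : b ≤ c) :
    a ≤ c * t := by
  have ht : 0 ≤ t := by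
    by_contra hcon
    rw [not_le] at hcon
    nlinarith
  exact hab.trans (mul_le_mul_of_nonneg_right hbc ht)

/-- points of `K` are in the support -/
lemma Loc.supp (hL : Loc m Q T ν P K δ τ) (hQ : 1 ≤ Q) {z : E} (hz : z ∈ K)
    (hzr : ‖T.starProjection z‖ < 3 / 16) : z ∈ ν.support := by
  have hfin := (hL.int (3 / 8) (by norm_num) le_rfl).cyl.fin
  have hcg := cg_pos m
  refine W5.mem_support_of_ratio (m := m) (s₀ := 3 / 16 - ‖T.starProjection z‖) (by linarith)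
    fun s hs hs2 => ?_
  have h1 := hL.high z hz s hs (by linarith)
  have h2 : (0:ℝ) < Q * cg m := by
    have : (1:ℝ) ≤ Q := by exact_mod_cast hQ
    positivity
  linarith

/-- the hypotheses of STEP-R on the measure -/
lemma Loc.step_hyp (hL : Loc m Q T ν P K δ τ) {εS r : ℝ} (hτ : 0 < τ) (hr : 0 < r)
    (hr3 : r ≤ 3 / 16) (hτS : τ ≤ εS / 2 ^ (m + 1)) :
    Skel.IntCyl m Q T 0 (2 * r) (εS * r) εS ν P ∧ Skel.exc T ν P 0 (2 * r) ≤ εS * r ^ m := by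
  have hτS : τ * 2 ^ (m + 1) ≤ εS := by rwa [le_div_iff₀ (by positivity)] at hτS
  have h2m : (2:ℝ) ≤ 2 ^ (m + 1) := by
    calc (2:ℝ) = 2 ^ 1 := (pow_one 2).symm
      _ ≤ 2 ^ (m + 1) := pow_le_pow_right₀ (by norm_num) (by omega)
  constructor
  · refine intCyl_mono (hL.int (2 * r) (by positivity) (by linarith)) ?_ ?_
    · have : τ * 2 ≤ εS := (mul_le_mul_of_nonneg_left h2m hτ.le).trans hτS
      nlinarith
    · nlinarith
  · refine (hL.exc (2 * r) (by positivity) (by linarith)).trans ?_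
    rw [mul_pow, ← mul_assoc]
    refine mul_le_mul_of_nonneg_right (le_trans ?_ hτS) (by positivity)
    exact mul_le_mul_of_nonneg_left (pow_le_pow_right₀ (by norm_num) (by omega)) hτ.le

/-- the bad set and the heights at the points of `K` -/
lemma exists_bad (hL : Loc m Q T ν P K δ τ) (hQ : 1 ≤ Q) {ε₅ C₅ : ℝ}
    (hsup : ∀ (T : Submodule ℝ E) (F : Frame m n T)
      (u : Fin n → REF.E m → ℝ) (Q : ℕ) (r θ h δ : ℝ) (ν : Measure E) (P : E → E →L[ℝ] E),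
      Refe ε₅ r u → r ≤ 3 / 16 → 0 < θ → θ < r → Skel.IntCyl m Q T 0 r h δ ν P →
        ∀ y ∈ ν.support, ‖T.starProjection y‖ ≤ r - θ →
          ‖KMS.rel T (F.lift u) y‖ ^ 2 ≤ C₅ * θ⁻¹ ^ m * hE T (F.lift u) ν r)
    {u ut : Fin n → REF.E m → ℝ} {c₀ c₁ c' ε r h θ R : ℝ} (hr : 0 < r) (hr3 : r ≤ 3 / 16)
    (hh : 0 < h) (hh1 : h ≤ 1) (hc' : c' ≤ c₀) (hθ0 : 0 < θ) (hθ1 : θ ≤ 1 / 120)
    (hR : R = r * (1 - 8 * θ)) (hO : StepOut m n Q T F u ut c₀ c₁ ε r h θ ν P)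
    (hut : Refe ε₅ R (trl ut)) (ha : ‖F.lift ut 0‖ ≤ r * h ^ (1 / 2 + c')) :
    ∃ Bad : Set E, W5.BadS m T ν P Bad (h ^ c₀) ε r R ∧
      W5.Hgt m T ν K Bad (KMS.rel T (F.lift (trl ut))) C₅ (2 * r * h ^ (1 / 2 + c')) R := by
  have hRr : R ≤ r * (1 - 7 * θ) := by rw [hR]; nlinarith
  have hR1 : R ≤ r := by rw [hR]; nlinarith
  have hrR : r ≤ 2 * R := by rw [hR]; nlinarith
  obtain ⟨Bad, hBm, hBs, hBg, hBp⟩ := hO.points
  have hIC := hL.int (3 / 8) (by norm_num) le_rfl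
  have hcont : Continuous (KMS.rel T (F.lift (trl ut))) :=
    (KMS.ref_lift (F := F) hut.smooth).contDiff_rel.continuous
  refine ⟨Bad, ⟨hR1, hrR, hBm, ?_, fun x hx hxB s hs hxs => hBg x hx hxB s hs (by linarith)⟩,
    ⟨hcont, fun t ht htR y hy hyt => W5.sup_of_refe hsup hIC (by linarith) (by linarith) F
      hut t ht htR y hy hyt, fun z hz hzR hzB => ?_⟩⟩
  · refine ENNReal.toReal_le_of_le_ofReal (by positivity) ?_
    exact le_add_self.trans hBs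
  · have h1 := hBp z (hL.supp hQ hz (by linarith)) (by linarith) hzB
      (fun s hs hzs => hL.high z hz s hs (by linarith))
    have h2 := W5.lift_transl (R := R) (u₁ := trl ut) (u' := ut) F
      (fun a x hx => trl_near ut a (by linarith)) (y := z) hzR
    rw [h2, W5.rel_zero, sub_neg_eq_add]
    have h3 : h ^ (1 / 2 + c₀) ≤ h ^ (1 / 2 + c') :=
      Real.rpow_le_rpow_of_exponent_ge hh hh1 (by linarith)
    calc ‖KMS.rel T (F.lift ut) z + F.lift ut 0‖ ≤ r * h ^ (1 / 2 + c₀)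
          + r * h ^ (1 / 2 + c') := (norm_add_le _ _).trans (add_le_add h1 ha)
      _ ≤ r * h ^ (1 / 2 + c') + r * h ^ (1 / 2 + c') := by gcongr
      _ = _ := by ring

/-- the bound of the heights in the whole window -/
lemma top_all {X : Exps} (hX : X.OK m) {f : ℝ → ℝ} {r R h C₀ : ℝ} (hr : 0 < r) (hR1 : R ≤ r)
    (hrR : r ≤ 2 * R) (hh : 0 < h) (hh1 : h ≤ 1) (hC₀ : 1 ≤ C₀) (hs3 : h ^ X.c₅ ≤ 1 / 2)
    (htop : ∀ t, R / 2 < t → t ≤ R → f t ≤ C₀ * h ^ (1 - X.e))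
    (hdec : ∀ t, r * h ^ X.c₅ ≤ t → 2 * t ≤ R →
      f t ≤ (1 / 2 ^ X.D) * f (2 * t) + C₀ * (r / t) ^ 2 * h ^ (1 + 2 * X.c')) (t : ℝ)
    (hat : r * h ^ X.c₅ ≤ t) (htR : t ≤ R) :
    f t ≤ (4 ^ X.D * C₀ + 2 * C₀ + C₀) * h ^ (1 - X.e) := by
  have hc5 : 0 < h ^ X.c₅ := by positivity
  have ht0 : 0 < t := lt_of_lt_of_le (by positivity) hat
  have h1 := (W5.small_at (D := X.D) (c₅ := X.c₅) (e := X.e) (g := 2 * X.c') (C₁ := C₀)
    (C₂ := C₀) hX.D_pos hX.c₅_pos (by linarith) (by linarith) (h := f) hr hR1 hrR hh hs3 htop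
    (fun t hat htR => (hdec t hat htR).trans (le_of_eq (by ring)))).1 t hat htR
  refine h1.trans ?_
  have htr : t / r ≤ 1 := by rw [div_le_one hr]; exact htR.trans hR1
  have htr' : (t / r) ^ X.D ≤ 1 := pow_le_one₀ (by positivity) htr
  have h2 : (r / t) ^ 2 ≤ h ^ (-(2 * X.c₅)) := by
    have h3 : r / t ≤ h ^ (-X.c₅) := by
      rw [Real.rpow_neg hh.le, div_le_iff₀ ht0, inv_mul_eq_div, le_div_iff₀ hc5]
      exact hat
    calc (r / t) ^ 2 ≤ (h ^ (-X.c₅)) ^ 2 := by gcongr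
      _ = _ := by rw [W5.rpow_sq hh]; congr 1; ring
  have h4 : h ^ (1 + 2 * X.c') * h ^ (-(2 * X.c₅)) ≤ h ^ (1 - X.e) := by
    rw [← Real.rpow_add hh]
    refine Real.rpow_le_rpow_of_exponent_ge hh hh1 ?_
    have := hX.c'_eq; have := hX.c₅_le; have := hX.c_pos; have := hX.e_pos
    linarith
  have hC0 : 0 ≤ C₀ := by linarith
  calc 4 ^ X.D * (t / r) ^ X.D * (C₀ * h ^ (1 - X.e))
        + 2 * (C₀ * h ^ (1 + 2 * X.c')) * (r / t) ^ 2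
      ≤ 4 ^ X.D * 1 * (C₀ * h ^ (1 - X.e))
        + 2 * (C₀ * h ^ (1 + 2 * X.c')) * h ^ (-(2 * X.c₅)) := by gcongr
    _ = 4 ^ X.D * C₀ * h ^ (1 - X.e)
        + 2 * C₀ * (h ^ (1 + 2 * X.c') * h ^ (-(2 * X.c₅))) := by ring
    _ ≤ 4 ^ X.D * C₀ * h ^ (1 - X.e) + 2 * C₀ * h ^ (1 - X.e) := by gcongr
    _ ≤ (4 ^ X.D * C₀ + 2 * C₀ + C₀) * h ^ (1 - X.e) := by
        have : 0 ≤ C₀ * h ^ (1 - X.e) := by positivity
        linarith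

/-- assembling the window -/
lemma nxt_of {X : Exps} (hX : X.OK m) {C₀ C₅ ε : ℝ} {u ut : Fin n → REF.E m → ℝ} {r h r' : ℝ}
    (hL : Loc m Q T ν P K δ τ)
    (hr : 0 < r) (hr3 : r ≤ 3 / 16) (hh : 0 < h) (hh1 : h ≤ 1) (hC₀ : 1 ≤ C₀)
    (hs3 : h ^ X.c₅ ≤ 1 / 2) (hθ0 : 0 < th h) (hθ1 : th h ≤ 1 / 120)
    (hW0 : ∀ (ψ : REF.E m → ℝ) (M : ℝ), Continuous ψ →
      (∀ x, r * (1 - 5 * th h) ≤ ‖x‖ → ψ x = 0) → (∀ x, |ψ x| ≤ M) →
      |∫ y, ψ (F.xc y) ∂ν - Q * ∫ x, ψ x * √(REF.gm u x).det ∂μH[m]|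
        ≤ r ^ m * h ^ (1 / 2 - X.c₁ / X.c₀) * M)
    (hO : StepOut m n Q T F u ut X.c₀ X.c₁ ε r h (th h) ν P)
    (hN' : Refe ε (r * (1 - 5 * th h)) (trl ut))
    (hsz : ∀ a, ∀ k ≤ sW m, ∀ x, ‖iteratedFDeriv ℝ k (fun x => trl ut a x - u a x) x‖
      ≤ r * r⁻¹ ^ k * h ^ (1 / 2 - X.e))
    (a2 : ∀ a, |ut a 0| ≤ r * h ^ (1 / 2 + X.c'))
    (a3 : ∀ t, r * h ^ X.c₅ ≤ t → 2 * t ≤ r * (1 - 8 * th h) →
      hN m T (F.lift (trl ut)) ν t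
        ≤ C₀ * (δ t + h ^ (X.c₀ / 2)) * hN m T (F.lift (trl ut)) ν (2 * t)
          + C₀ * (r / t) ^ 2 * h ^ (1 + 2 * X.c'))
    (a4 : ∀ t, r * h ^ X.c₅ ≤ t → 2 * t ≤ r * (1 - 8 * th h) →
      hN m T (F.lift (trl ut)) ν t ≤ (1 / 2 ^ X.D) * hN m T (F.lift (trl ut)) ν (2 * t)
          + C₀ * (r / t) ^ 2 * h ^ (1 + 2 * X.c'))
    (a5 : ∀ t, r * (1 - 8 * th h) / 2 < t → t ≤ r * (1 - 8 * th h) →
        hN m T (F.lift (trl ut)) ν t ≤ C₀ * h ^ (1 - X.e))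
    (b1 : r * h ^ X.c₅ ≤ r') (b2 : r' ≤ r * (1 - 12 * th h))
    (b3 : hN m T (F.lift (trl ut)) ν r' ≤ h ^ (1 + X.c))
    (b4 : ∀ t, r' < t → t ≤ r * (1 - 12 * th h) → h ^ (1 + X.c) < hN m T (F.lift (trl ut)) ν t)
    (hbad : ∃ Bad : Set E, W5.BadS m T ν P Bad (h ^ X.c₀) ε r (r * (1 - 8 * th h)) ∧
      W5.Hgt m T ν K Bad (KMS.rel T (F.lift (trl ut))) C₅ (2 * r * h ^ (1 / 2 + X.c'))
        (r * (1 - 8 * th h))) :
    Nxt m n Q T F ν P K δ X (4 ^ X.D * C₀ + 2 * C₀ + C₀) C₅ ε u r h ut (trl ut) r' := by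
  have he1 := e_half hX
  have hep := hX.e_pos
  have hC0 : 0 ≤ C₀ := by linarith
  refine { refe := hN', zero := trl_zero ut, smooth_t := hO.smooth,
           tr := fun a x hx => trl_near ut a hx, tr_le := a2, size := hsz, weak := ?_,
           mass := ?_, r_ge := b1, r_le := b2, h_next := b3, h_gt := b4, top := ?_, dec := ?_,
           bad := hbad }
  · intro φ M hφ
    refine mul_weaken (abs_nonneg _) (hO.weak φ M hφ) (by positivity) ?_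
    refine mul_le_mul_of_nonneg_left ?_ (by positivity)
    refine Real.rpow_le_rpow_of_exponent_ge hh hh1 ?_
    rw [he1]; linarith
  · intro ψ M hψ hψ0 hψM
    refine mul_weaken (abs_nonneg _) (hW0 ψ M hψ hψ0 hψM) (by positivity) ?_
    refine mul_le_mul_of_nonneg_left ?_ (by positivity)
    refine Real.rpow_le_rpow_of_exponent_ge hh hh1 ?_
    rw [he1]; linarith
  · intro t hat htR
    exact top_all hX (f := hN m T (F.lift (trl ut)) ν) hr (by nlinarith) (by nlinarith) hh hh1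
      hC₀ hs3 a5 a4 t hat htR
  · intro t hat htR
    have ht0 : 0 < t := lt_of_lt_of_le (by positivity) hat
    refine (a3 t hat htR).trans ?_
    have h1 : C₀ ≤ 4 ^ X.D * C₀ + 2 * C₀ + C₀ := by
      have : 0 ≤ 4 ^ X.D * C₀ := by positivity
      linarith
    have h2 : 0 ≤ hN m T (F.lift (trl ut)) ν (2 * t) := hN_nonneg (by positivity)
    have h3 : 0 ≤ δ t := hL.δ_nn t ht0 (by nlinarith)
    gcongr

/-- the norms stay below `εN` -/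
lemma norm_step' {X : Exps} (hX : X.OK m) {K₀ b h h' r εN : ℝ} (hs : Sma X (max K₀ 1) b h)
    (hr : 0 < r) (hp : h ≤ r ^ (8 * sW m)) (h1 : 0 ≤ h') (h2 : h' ≤ h ^ (1 + X.c)) :
    εN - 2 * h ^ (1 / 8 : ℝ) + r⁻¹ ^ sW m * (K₀ * h ^ (1 / 2 - X.c₁ / X.c₀))
        ≤ εN - 2 * h' ^ (1 / 8 : ℝ) := by
  have hh := hs.pos
  have h3 := norm_step (ε := εN) hX hs hr (by positivity) hp h1 h2
  have h5 : 0 ≤ h ^ (1 / 2 - X.c₁ / X.c₀) := by positivity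
  have h4 : r⁻¹ ^ sW m * (K₀ * h ^ (1 / 2 - X.c₁ / X.c₀))
    ≤ r⁻¹ ^ sW m * (max K₀ 1 * h ^ (1 / 2 - X.c₁ / X.c₀)) :=
    mul_le_mul_of_nonneg_left (mul_le_mul_of_nonneg_right (le_max_left _ _) h5) (by positivity)
  linarith

/-- the next radius and the next state -/
lemma next_core (hQ : 1 ≤ Q) {X : Exps} (hX : X.OK m) {K₀ C₀ C₅ ε₅ ε εN ε₁ b M τ₀ r h : ℝ}
    (hsup : ∀ (T : Submodule ℝ E) (F : Frame m n T)
      (u : Fin n → REF.E m → ℝ) (Q : ℕ) (r θ h δ : ℝ) (ν : Measure E) (P : E → E →L[ℝ] E),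
      Refe ε₅ r u → r ≤ 3 / 16 → 0 < θ → θ < r → Skel.IntCyl m Q T 0 r h δ ν P →
        ∀ y ∈ ν.support, ‖T.starProjection y‖ ≤ r - θ →
          ‖KMS.rel T (F.lift u) y‖ ^ 2 ≤ C₅ * θ⁻¹ ^ m * hE T (F.lift u) ν r)
    (n1 : εN ≤ ε) (n4 : εN ≤ ε₅) (hC₀ : 1 ≤ C₀) (hL : Loc m Q T ν P K δ τ)
    {u ut : Fin n → REF.E m → ℝ} (hI : Inv m n T F ν εN ε₁ u r h)
    (hs : Sma X (max K₀ 1) b h) (hD : W5.Dat m Q T ν P K δ M τ₀ r)
    (hW0 : ∀ (ψ : REF.E m → ℝ) (M : ℝ), Continuous ψ →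
      (∀ x, r * (1 - 5 * th h) ≤ ‖x‖ → ψ x = 0) → (∀ x, |ψ x| ≤ M) →
      |∫ y, ψ (F.xc y) ∂ν - Q * ∫ x, ψ x * √(REF.gm u x).det ∂μH[m]|
        ≤ r ^ m * h ^ (1 / 2 - X.c₁ / X.c₀) * M)
    (hOε : StepOut m n Q T F u ut X.c₀ X.c₁ ε r h (th h) ν P)
    (hsz : ∀ a, ∀ k ≤ sW m, ∀ x, ‖iteratedFDeriv ℝ k (fun x => trl ut a x - u a x) x‖
      ≤ r * r⁻¹ ^ k * (K₀ * h ^ (1 / 2 - X.c₁ / X.c₀)))
    (href' : Refe (εN - 2 * h ^ (1 / 8 : ℝ) + r⁻¹ ^ sW m * (K₀ * h ^ (1 / 2 - X.c₁ / X.c₀)))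
      (r * (1 - 5 * th h)) (trl ut))
    (a1 : ‖F.lift ut 0‖ ≤ r * h ^ (1 / 2 + X.c'))
    (a2 : ∀ a, |ut a 0| ≤ r * h ^ (1 / 2 + X.c'))
    (a3 : ∀ t, r * h ^ X.c₅ ≤ t → 2 * t ≤ r * (1 - 8 * th h) →
      hN m T (F.lift (trl ut)) ν t
        ≤ C₀ * (δ t + h ^ (X.c₀ / 2)) * hN m T (F.lift (trl ut)) ν (2 * t)
          + C₀ * (r / t) ^ 2 * h ^ (1 + 2 * X.c'))
    (a4 : ∀ t, r * h ^ X.c₅ ≤ t → 2 * t ≤ r * (1 - 8 * th h) →
      hN m T (F.lift (trl ut)) ν t ≤ (1 / 2 ^ X.D) * hN m T (F.lift (trl ut)) ν (2 * t)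
          + C₀ * (r / t) ^ 2 * h ^ (1 + 2 * X.c'))
    (a5 : ∀ t, r * (1 - 8 * th h) / 2 < t → t ≤ r * (1 - 8 * th h) →
        hN m T (F.lift (trl ut)) ν t ≤ C₀ * h ^ (1 - X.e))
    (a6 : hN m T (F.lift (trl ut)) ν (r * h ^ X.c₅) ≤ h ^ (1 + X.c)) :
    ∃ (u' : Fin n → REF.E m → ℝ) (r' : ℝ),
      Nxt m n Q T F ν P K δ X (4 ^ X.D * C₀ + 2 * C₀ + C₀) C₅ ε u r h ut u' r' ∧ 0 < r' ∧
        Refe εN r' u' ∧
        (hN m T (F.lift u') ν r' = 0 ∨ Inv m n T F ν εN ε₁ u' r' (hN m T (F.lift u') ν r')) := by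
  have hr := hI.r_pos
  have hr3 := hI.r_le
  have hh := hI.h_pos
  have hh1 := hs.le_one
  have hθ0 := hs.th_pos
  have hθ1 := hs.th_le
  have hbd := fun h' => norm_step' (h' := h') (εN := εN) hX hs hr hI.h_pow
  have hbd0 : εN - 2 * h ^ (1 / 8 : ℝ) + r⁻¹ ^ sW m * (K₀ * h ^ (1 / 2 - X.c₁ / X.c₀)) ≤ εN := by
    have h3 := hbd 0 le_rfl (by positivity)
    rw [Real.zero_rpow (by norm_num)] at h3
    linarith
  have hN' : Refe εN (r * (1 - 5 * th h)) (trl ut) := href'.weaken hbd0 le_rfl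
  have hexact : r * (1 - 8 * th h) ≤ r * (1 - 5 * th h) := by nlinarith
  have hcont : Continuous (KMS.rel T (F.lift (trl ut))) :=
    (KMS.ref_lift (F := F) hN'.smooth).contDiff_rel.continuous
  obtain ⟨r', b1, b2, b3, b4⟩ := W5.next_radius (R := r * (1 - 12 * th h)) hD (by nlinarith) hcont
    (t₀ := r * h ^ X.c₅) (a := h ^ (1 + X.c)) (by positivity) (by have := hs.s3; nlinarith) a6
  have hr' : 0 < r' := lt_of_lt_of_le (by positivity) b1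
  have hr'5 : r' ≤ r * (1 - 5 * th h) := b2.trans (by nlinarith)
  have hsz' : ∀ a, ∀ k ≤ sW m, ∀ x, ‖iteratedFDeriv ℝ k (fun x => trl ut a x - u a x) x‖
      ≤ r * r⁻¹ ^ k * h ^ (1 / 2 - X.e) := by
    intro a k hk x
    refine (hsz a k hk x).trans (mul_le_mul_of_nonneg_left ?_ (by positivity))
    exact (mul_le_mul_of_nonneg_right (le_max_left _ _) (by positivity)).trans (K_size hX hs)
  have hc'0 : X.c' ≤ X.c₀ := hX.expo.c'_lt.le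
  refine ⟨trl ut, r', nxt_of hX hL hr hr3 hh hh1 hC₀ hs.s3 hθ0 hθ1 hW0 hOε (hN'.weaken n1 le_rfl)
    hsz' a2 a3 a4 a5 b1 b2 b3 b4
    (exists_bad hL hQ hsup hr hr3 hh hh1 hc'0 hθ0 hθ1 rfl hOε (hN'.weaken n4 hexact) a1), hr',
    hN'.weaken le_rfl hr'5, ?_⟩
  have hnn' : 0 ≤ hN m T (F.lift (trl ut)) ν r' := hN_nonneg hr'
  rcases hnn'.eq_or_lt with h0 | h0
  · exact Or.inl h0.symm
  · right
    refine ⟨href'.weaken (hbd _ hnn' b3) hr'5, trl_zero ut, hr',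
      by nlinarith, rfl, h0, ?_, pow_step hX hs hr hI.h_pow b3 b1⟩
    refine (b3.trans ?_).trans hI.h_le
    calc h ^ (1 + X.c) ≤ h ^ (1:ℝ) :=
          Real.rpow_le_rpow_of_exponent_ge hh hh1 (by have := hX.c_pos; linarith)
      _ = h := Real.rpow_one h

/-- **one step of the windows sequence** -/
theorem exists_next (hm : 1 ≤ m) (hQ : 1 ≤ Q) {X : Exps} (hX : X.OK m)
    (hS : StepAt E m n Q X.c₀ X.c₁) :
    ∃ C C₅ : ℝ, 1 ≤ C ∧ 0 ≤ C₅ ∧ ∀ ε b : ℝ, 0 < ε → 0 < b → ∃ εN ε₁ τ : ℝ, 0 < εN ∧ εN ≤ ε ∧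
      0 < ε₁ ∧ ε₁ ≤ b ∧ ε₁ ≤ εN ∧ 0 < τ ∧ τ ≤ ε ∧ (∀ h, 0 < h → h ≤ ε₁ → Sma X 1 b h) ∧
      ∀ (T : Submodule ℝ E) (F : Frame m n T) (ν : Measure E) (P : E → E →L[ℝ] E) (K : Set E)
        (δ : ℝ → ℝ), Loc m Q T ν P K δ τ → ∀ (u : Fin n → REF.E m → ℝ) (r h : ℝ),
        Inv m n T F ν εN ε₁ u r h → ∃ (ut u' : Fin n → REF.E m → ℝ) (r' : ℝ),
          Nxt m n Q T F ν P K δ X C C₅ ε u r h ut u' r' ∧ 0 < r' ∧ Refe εN r' u' ∧
            (hN m T (F.lift u') ν r' = 0 ∨ Inv m n T F ν εN ε₁ u' r' (hN m T (F.lift u') ν r')) := by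
  have hMom : (0:ℝ) ≤ Q * Skel.om m + 1 := by
    have := W5.om_pos m; positivity
  obtain ⟨K₀, hK₀, htrl⟩ := exists_trl m n
  obtain ⟨ε₅, C₅, hε₅, hC₅, hsup⟩ := HSW.supStmt E m n
  have hexp := hX.expo
  rw [hX.e_c₁] at hexp
  obtain ⟨τ₀, δ₁, ε₀, C₀, hτ₀, hδ₁, hε₀, hC₀, H⟩ :=
    W5.one_step E m n Q hm hQ (c₁ := X.c₁) hexp hMom
  have he1 := e_half hX
  refine ⟨4 ^ X.D * C₀ + 2 * C₀ + C₀, C₅, ?_, hC₅, ?_⟩
  · have : 0 ≤ 4 ^ X.D * C₀ := by positivity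
    linarith
  intro ε b hε hb
  obtain ⟨εS, hεS, hεS1, hS'⟩ := hS (min τ₀ ε) (lt_min hτ₀ hε)
  obtain ⟨εN, hεN0, n1, n2, n3, n4⟩ : ∃ εN : ℝ, 0 < εN ∧ εN ≤ ε ∧ εN ≤ ε₀ ∧ εN ≤ εS ∧ εN ≤ ε₅ :=
    ⟨min (min ε ε₀) (min εS ε₅), by positivity, (min_le_left _ _).trans (min_le_left _ _),
      (min_le_left _ _).trans (min_le_right _ _), (min_le_right _ _).trans (min_le_left _ _),
      (min_le_right _ _).trans (min_le_right _ _)⟩
  obtain ⟨ε₁, hε₁, hε₁b, hsma⟩ := exists_sma hX (max K₀ 1) (lt_min hb hεN0)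
  have hε₁b1 : ε₁ ≤ b := hε₁b.trans (min_le_left _ _)
  have hε₁N : ε₁ ≤ εN := hε₁b.trans (min_le_right _ _)
  obtain ⟨τ, hτ0, t1, t2, t3, t4, t5⟩ : ∃ τ : ℝ, 0 < τ ∧ τ ≤ τ₀ ∧ τ ≤ ε ∧ τ ≤ δ₁ ∧ τ ≤ 1 ∧
      τ ≤ εS / 2 ^ (m + 1) :=
    ⟨min (min τ₀ ε) (min (min δ₁ 1) (εS / 2 ^ (m + 1))), by positivity,
      (min_le_left _ _).trans (min_le_left _ _), (min_le_left _ _).trans (min_le_right _ _),
      (min_le_right _ _).trans ((min_le_left _ _).trans (min_le_left _ _)),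
      (min_le_right _ _).trans ((min_le_left _ _).trans (min_le_right _ _)),
      (min_le_right _ _).trans (min_le_right _ _)⟩
  refine ⟨εN, ε₁, τ, hεN0, n1, hε₁, hε₁b1, hε₁N, hτ0, t2, fun h hh hhe => ?_, ?_⟩
  · have h1 := hsma h hh hhe
    refine ⟨h1.pos, h1.le_one, h1.le_b.trans (min_le_left _ _), h1.th_ge, h1.th_pos, h1.th_le, ?_,
      h1.s2, h1.s3⟩
    refine le_trans ?_ h1.s1
    exact mul_le_mul_of_nonneg_right (le_max_right _ _) (by positivity)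
  intro T F ν P K δ hL u r h hI
  have hr := hI.r_pos
  have hr3 := hI.r_le
  have hh := hI.h_pos
  have hs := hsma h hh hI.h_le
  have hθ0 := hs.th_pos
  have hθ1 := hs.th_le
  have hp8 : 0 ≤ h ^ (1 / 8 : ℝ) := by positivity
  have hrefN : Refe εN r u := hI.refe.weaken (by linarith) le_rfl
  have hD : W5.Dat m Q T ν P K δ (Q * Skel.om m + 1) τ₀ r := hL.dat hQ t1 t4 hr hr3
  obtain ⟨hIC, hEX⟩ := hL.step_hyp hτ0 hr hr3 t5
  obtain ⟨hW0, ut, hO'⟩ := hS' T F u r h (th h) ν P (hrefN.weaken n3 le_rfl) hI.zero hr hr3 hIC hEX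
    hI.h_eq hh (hI.h_le.trans (hε₁N.trans n3)) hs.th_ge hθ1
  have hO : StepOut m n Q T F u ut X.c₀ X.c₁ τ₀ r h (th h) ν P := stepOut_mono hO' (min_le_left _ _)
  -- translation
  obtain ⟨hsz, href', hreft⟩ := htrl u ut r (r * (1 - 5 * th h)) _ _ hI.refe
    hI.zero hr hr3 (by nlinarith) hO.smooth hO.outside hO.size (by positivity) hO.exact
  have hexact : r * (1 - 8 * th h) ≤ r * (1 - 5 * th h) := by nlinarith
  have hbd0 : εN - 2 * h ^ (1 / 8 : ℝ) + r⁻¹ ^ sW m * (K₀ * h ^ (1 / 2 - X.c₁ / X.c₀)) ≤ εN := by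
    have h3 := norm_step' (h' := 0) (εN := εN) hX hs hr hI.h_pow le_rfl (by positivity)
    rw [Real.zero_rpow (by norm_num)] at h3
    linarith
  -- (W5)
  obtain ⟨a1, a2, a3, a4, a5, a6, -⟩ := H T F u ut (trl ut) ν P K δ h r (r * (1 - 8 * th h))
    (th h) hD (fun t ht htr => (hL.δ_le t ht (by linarith)).trans t3)
    (fun z hz s hs hzs => hL.high z hz s hs (by linarith)) hL.zero_supp hr3 hI.refe.smooth
    hI.zero hI.h_eq hh (hI.h_le.trans (hε₁N.trans n2)) hO hθ0.le (by nlinarith) (by nlinarith)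
    (hreft.weaken (hbd0.trans n2) hexact) (href'.weaken (hbd0.trans n2) hexact)
    (fun a x hx => trl_near ut a (by nlinarith))
  rw [← hX.e_c₁] at a5
  obtain ⟨u', r', hres⟩ := next_core hQ hX hsup n1 n4 hC₀ hL hI hs hD hW0
    (stepOut_mono hO' (min_le_right _ _)) hsz href' a1 a2 a3 a4 a5 a6
  exact ⟨ut, u', r', hres⟩

end Vale.Agent.P214.WSEQ
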