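import Vale.Agent.P214.WSEQ.Seq
import Vale.Agent.P214.WIN.StepFin

/-! # P214, block WINDOWS: unconditional form -/

namespace Vale.Agent.P214.WSEQ

open MeasureTheory

/-- **[WINDOWS]**, unconditional -/
theorem windowsStmt (E : Type*) [NormedAddCommGroup E] [InnerProductSpace ℝ E]
    [FiniteDimensional ℝ E] [MeasurableSpace E] [BorelSpace E] {m : ℕ} (n : ℕ) {Q : ℕ}
    (hm : 1 ≤ m) (hQ : 1 ≤ Q) : WindowsStmt E m n Q :=
  windows E hm hQ (WIN.step_all E n hm hQ)

end Vale.Agent.P214.WSEQ
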