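import Vale.Agent.P214.WSEQ.Bump
import Vale.Agent.P214.WSEQ.Interp

/-!
# P214, WINDOWS (W6): the difference of two references from two weak bounds
-/

open Set Filter Topology MeasureTheory Metric Matrix
open scoped RealInnerProductSpace ENNReal ContDiff

namespace Vale.Agent.P214.WSEQ

open WIN STR

noncomputable section

variable {m n : ℕ}

lemma continuous_pd {f : REF.E m → ℝ} (hf : ContDiff ℝ ∞ f) (i : Fin m) :
    Continuous fun x => REF.pd i f x := by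
  unfold REF.pd
  exact (hf.continuous_fderiv (by simp)).clm_apply continuous_const

lemma continuous_sqrt_det {u : Fin n → REF.E m → ℝ} (hu : ∀ a, ContDiff ℝ ∞ (u a)) :
    Continuous fun x => √(REF.gm u x).det := by
  refine Real.continuous_sqrt.comp (Continuous.matrix_det ?_)
  unfold REF.gm
  refine continuous_const.add (continuous_matrix fun i j => ?_)
  simp only [Matrix.of_apply]
  exact continuous_finsetSum _ fun b _ => (continuous_pd (hu b) i).mul (continuous_pd (hu b) j)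

lemma hasCompactSupport_eta {x₀ : REF.E m} {ρ : ℝ} (hρ : 0 < ρ) :
    HasCompactSupport (eta x₀ ρ) := by
  refine HasCompactSupport.intro (isCompact_closedBall x₀ ρ) fun x hx => ?_
  refine eta_zero hρ ?_
  rw [mem_closedBall, dist_eq_norm, not_le] at hx
  exact hx.le

/-- area of a bump on the graph -/
lemma integral_eta_le_area {u : Fin n → REF.E m → ℝ} (hu : ∀ a, ContDiff ℝ ∞ (u a))
    {x₀ : REF.E m} {ρ : ℝ} (hρ : 0 < ρ) :
    ∫ x, eta x₀ ρ x ∂(μH[m] : Measure (REF.E m))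
      ≤ ∫ x, eta x₀ ρ x * √(REF.gm u x).det ∂(μH[m] : Measure (REF.E m)) := by
  have hfin : IsFiniteMeasureOnCompacts (μH[m] : Measure (REF.E m)) := by
    rw [COORD.hausdorff_eq]; infer_instance
  have hcs := hasCompactSupport_eta (x₀ := x₀) hρ
  refine integral_mono ((continuous_eta x₀ ρ).integrable_of_hasCompactSupport hcs)
    (((continuous_eta x₀ ρ).mul (continuous_sqrt_det hu)).integrable_of_hasCompactSupport
      hcs.mul_right) fun x => ?_
  have h1 := one_le_sqrt_det_gm u x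
  have h2 := eta_nonneg x₀ ρ x
  simp only
  nlinarith

variable {E : Type*} [NormedAddCommGroup E] [InnerProductSpace ℝ E] [FiniteDimensional ℝ E]
  [MeasurableSpace E] [BorelSpace E] {T : Submodule ℝ E}

/-- integrability of a component of the height against a bump -/
lemma integrable_eta_ht {ν : Measure E} [IsFiniteMeasure ν] (F : Frame m n T) {R h : ℝ}
    (hslab : ∀ᵐ y ∂ν, T.starProjection y ∈ ball (0 : E) R → ‖y - T.starProjection y‖ ≤ h)
    {u : Fin n → REF.E m → ℝ} (hu : ∀ a, ContDiff ℝ ∞ (u a)) (a : Fin n) {x₀ : REF.E m} {ρ : ℝ}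
    (hρ : 0 < ρ) (hx₀ : ‖x₀‖ + ρ ≤ R) :
    Integrable (fun y => eta x₀ ρ (F.xc y) * F.ht u a y) ν := by
  obtain ⟨C, hC⟩ := (isCompact_closedBall x₀ ρ).exists_bound_of_continuousOn
    (hu a).continuous.continuousOn
  have hcx : Continuous F.xc := continuous_xc F
  refine Integrable.mono' (integrable_const (|h| + |C|)) ?_ ?_
  · refine Continuous.aestronglyMeasurable (((continuous_eta x₀ ρ).comp hcx).mul ?_)
    unfold Frame.ht
    exact (continuous_const.inner continuous_id).sub ((hu a).continuous.comp hcx)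
  · filter_upwards [hslab] with y hy
    by_cases hyx : ‖F.xc y - x₀‖ < ρ
    · have h1 : T.starProjection y ∈ ball (0 : E) R := by
        rw [mem_ball_zero_iff, ← norm_xc F]
        have := norm_sub_norm_le (F.xc y) x₀
        linarith
      have h2 := hy h1
      have h3 : |⟪((F.bN a : Tᗮ) : E), y⟫| ≤ |h| := by
        have h4 : ⟪((F.bN a : Tᗮ) : E), y⟫ = ⟪((F.bN a : Tᗮ) : E), y - T.starProjection y⟫ := by
          rw [inner_sub_right, (Submodule.mem_orthogonal' T _).1 (F.bN a).2 _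
            (T.starProjection_apply_mem y), sub_zero]
        rw [h4]
        calc _ ≤ ‖((F.bN a : Tᗮ) : E)‖ * ‖y - T.starProjection y‖ := abs_real_inner_le_norm _ _
          _ = ‖y - T.starProjection y‖ := by
              have : ‖((F.bN a : Tᗮ) : E)‖ = 1 := F.bN.orthonormal.1 a
              rw [this, one_mul]
          _ ≤ h := h2
          _ ≤ |h| := le_abs_self h
      have h5 : |u a (F.xc y)| ≤ |C| := by
        have := hC (F.xc y) (by rw [mem_closedBall, dist_eq_norm]; exact hyx.le)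
        rw [Real.norm_eq_abs] at this
        exact this.trans (le_abs_self C)
      rw [Real.norm_eq_abs, abs_mul]
      have h6 : |F.ht u a y| ≤ |h| + |C| := by
        unfold Frame.ht
        exact (abs_sub _ _).trans (add_le_add h3 h5)
      calc _ ≤ 1 * |F.ht u a y| := by gcongr; exact abs_eta_le _ _ _
        _ ≤ _ := by rw [one_mul]; exact h6
    · rw [eta_zero hρ (not_lt.1 hyx), zero_mul, norm_zero]
      positivity

/-- **value of the difference of two references from two weak bounds** -/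
theorem acc_sup {ν : Measure E} [IsFiniteMeasure ν] (F : Frame m n T) {R h : ℝ}
    (hslab : ∀ᵐ y ∂ν, T.starProjection y ∈ ball (0 : E) R → ‖y - T.starProjection y‖ ≤ h)
    {u₁ u₂ : Fin n → REF.E m → ℝ} (hu₁ : ∀ a, ContDiff ℝ ∞ (u₁ a))
    (hu₂ : ∀ a, ContDiff ℝ ∞ (u₂ a)) {K : ℕ} {C : ℝ}
    (hC : ∀ k ≤ K, ∀ (x₀ : REF.E m) (ρ : ℝ), 0 < ρ →
      ∀ x, ‖iteratedFDeriv ℝ k (eta x₀ ρ) x‖ ≤ C * ρ⁻¹ ^ k) (hC0 : 0 ≤ C)
    {r₀ r₁ ρ₀ ρ₁ B₀ B₁ ρ lam : ℝ}
    (hw1 : ∀ (φ : Fin n → REF.E m → ℝ) (M : ℝ), TstR K r₀ ρ₀ M φ →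
      |∫ y, ∑ a, φ a (F.xc y) * F.ht u₁ a y ∂ν| ≤ B₀ * M)
    (hw2 : ∀ (φ : Fin n → REF.E m → ℝ) (M : ℝ), TstR K r₁ ρ₁ M φ →
      |∫ y, ∑ a, φ a (F.xc y) * F.ht u₂ a y ∂ν| ≤ B₁ * M)
    (hρ : 0 < ρ) (hρ0 : ρ ≤ r₀) (hρ1 : ρ ≤ r₁) {x₀ : REF.E m} (hx0 : ‖x₀‖ + ρ ≤ ρ₀)
    (hx1 : ‖x₀‖ + ρ ≤ ρ₁) (hxR : ‖x₀‖ + ρ ≤ R) (a : Fin n)
    (hlip : ∀ x, ‖x - x₀‖ < ρ → |(u₂ a x - u₁ a x) - (u₂ a x₀ - u₁ a x₀)| ≤ lam) :
    |u₂ a x₀ - u₁ a x₀| * ∫ y, eta x₀ ρ (F.xc y) ∂ν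
      ≤ B₀ * (C * (r₀ / ρ) ^ K) + B₁ * (C * (r₁ / ρ) ^ K)
        + lam * ∫ y, eta x₀ ρ (F.xc y) ∂ν := by
  have hcx : Continuous F.xc := continuous_xc F
  have hI : Integrable (fun y => eta x₀ ρ (F.xc y)) ν := by
    refine Integrable.mono' (integrable_const 1)
      ((continuous_eta x₀ ρ).comp hcx).aestronglyMeasurable (Eventually.of_forall fun y => ?_)
    rw [Real.norm_eq_abs]; exact abs_eta_le _ _ _
  have hsum : ∀ (u : Fin n → REF.E m → ℝ) (y : E),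
      ∑ b, tv a x₀ ρ b (F.xc y) * F.ht u b y = eta x₀ ρ (F.xc y) * F.ht u a y := by
    intro u y
    unfold tv
    simp [Finset.sum_ite_eq']
  have e1 := hw1 (tv a x₀ ρ) _ (tstR_tv hC hC0 a hρ hρ0 hx0)
  have e2 := hw2 (tv a x₀ ρ) _ (tstR_tv hC hC0 a hρ hρ1 hx1)
  simp only [hsum] at e1 e2
  have i1 := integrable_eta_ht F hslab hu₁ a hρ hxR
  have i2 := integrable_eta_ht F hslab hu₂ a hρ hxR
  -- the difference
  set d : REF.E m → ℝ := fun x => u₂ a x - u₁ a x with hd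
  have h1 : ∫ y, eta x₀ ρ (F.xc y) * d (F.xc y) ∂ν
      = ∫ y, eta x₀ ρ (F.xc y) * F.ht u₁ a y ∂ν - ∫ y, eta x₀ ρ (F.xc y) * F.ht u₂ a y ∂ν := by
    rw [← integral_sub i1 i2]
    refine integral_congr_ae (Eventually.of_forall fun y => ?_)
    simp only [hd, Frame.ht]
    ring
  have hid : Integrable (fun y => eta x₀ ρ (F.xc y) * d (F.xc y)) ν := by
    have : (fun y => eta x₀ ρ (F.xc y) * d (F.xc y)) = fun y =>
        eta x₀ ρ (F.xc y) * F.ht u₁ a y - eta x₀ ρ (F.xc y) * F.ht u₂ a y := by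
      funext y; simp only [hd, Frame.ht]; ring
    rw [this]
    exact i1.sub i2
  have h2 : d x₀ * ∫ y, eta x₀ ρ (F.xc y) ∂ν
      = ∫ y, eta x₀ ρ (F.xc y) * d (F.xc y) ∂ν
        - ∫ y, eta x₀ ρ (F.xc y) * (d (F.xc y) - d x₀) ∂ν := by
    rw [← integral_sub hid ?_, ← integral_const_mul]
    · refine integral_congr_ae (Eventually.of_forall fun y => ?_)
      simp only
      ring
    · have : (fun y => eta x₀ ρ (F.xc y) * (d (F.xc y) - d x₀)) = fun y =>
          eta x₀ ρ (F.xc y) * d (F.xc y) - eta x₀ ρ (F.xc y) * d x₀ := by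
        funext y; ring
      rw [this]
      exact hid.sub (hI.mul_const _)
  have h3 : |∫ y, eta x₀ ρ (F.xc y) * (d (F.xc y) - d x₀) ∂ν|
      ≤ lam * ∫ y, eta x₀ ρ (F.xc y) ∂ν := by
    rw [← integral_const_mul]
    have h4 : ‖∫ y, eta x₀ ρ (F.xc y) * (d (F.xc y) - d x₀) ∂ν‖
        ≤ ∫ y, lam * eta x₀ ρ (F.xc y) ∂ν := by
      refine norm_integral_le_of_norm_le (hI.const_mul lam) (Eventually.of_forall fun y => ?_)
      have h5 := eta_nonneg x₀ ρ (F.xc y)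
      rw [Real.norm_eq_abs, abs_mul, abs_of_nonneg h5, mul_comm]
      by_cases hy : ‖F.xc y - x₀‖ < ρ
      · exact mul_le_mul_of_nonneg_right (hlip _ hy) h5
      · rw [eta_zero hρ (not_lt.1 hy), mul_zero, mul_zero]
    rwa [Real.norm_eq_abs] at h4
  have hI0 : 0 ≤ ∫ y, eta x₀ ρ (F.xc y) ∂ν := integral_nonneg fun y => eta_nonneg _ _ _
  calc |u₂ a x₀ - u₁ a x₀| * ∫ y, eta x₀ ρ (F.xc y) ∂ν
      = |d x₀ * ∫ y, eta x₀ ρ (F.xc y) ∂ν| := by rw [abs_mul, abs_of_nonneg hI0]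
    _ ≤ |∫ y, eta x₀ ρ (F.xc y) * d (F.xc y) ∂ν|
        + |∫ y, eta x₀ ρ (F.xc y) * (d (F.xc y) - d x₀) ∂ν| := by rw [h2]; exact abs_sub _ _
    _ ≤ (|∫ y, eta x₀ ρ (F.xc y) * F.ht u₁ a y ∂ν|
        + |∫ y, eta x₀ ρ (F.xc y) * F.ht u₂ a y ∂ν|) + lam * ∫ y, eta x₀ ρ (F.xc y) ∂ν := by
        rw [h1]
        exact add_le_add (abs_sub _ _) h3
    _ ≤ _ := by
        have : B₀ * (C * (r₀ / ρ) ^ K) + B₁ * (C * (r₁ / ρ) ^ K)
          = B₀ * (C * (r₀ / ρ) ^ K) + B₁ * (C * (r₁ / ρ) ^ K) := rfl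
        gcongr

end

end Vale.Agent.P214.WSEQ
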