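import Vale.Agent.P214.WSEQ.Exps
import Vale.Agent.P214.STR.Parts

/-! # P214, block WINDOWS: arithmetic of one step -/

open Set Filter Topology MeasureTheory Metric
open scoped RealInnerProductSpace ENNReal ContDiff

set_option linter.all false

namespace Vale.Agent.P214.WSEQ

open WIN STR

/-- what is needed of a small height -/
structure Sma (X : Exps) (K b h : ℝ) : Prop where
  pos : 0 < h
  le_one : h ≤ 1
  le_b : h ≤ b
  th_ge : h ^ X.c₁ ≤ th h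
  th_pos : 0 < th h
  th_le : th h ≤ 1 / 120
  s1 : K * h ^ (X.e / 2) ≤ 1
  s2 : 2 * h ^ (X.c / 8) ≤ 1
  s3 : h ^ X.c₅ ≤ 1 / 2

theorem exists_sma {X : Exps} {m : ℕ} (hX : X.OK m) (K : ℝ) {b : ℝ} (hb : 0 < b) :
    ∃ ε : ℝ, 0 < ε ∧ ε ≤ b ∧ ∀ h, 0 < h → h ≤ ε → Sma X K b h := by
  have hc := hX.c_pos
  obtain ⟨e₁, he₁, he₁', h1⟩ := exists_th hX.c₁_pos (show (0:ℝ) < 1 / 120 by norm_num)
  obtain ⟨e₂, he₂, h2⟩ := exists_small K (half_pos hX.e_pos)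
  obtain ⟨e₃, he₃, h3⟩ := exists_small 2 (show 0 < X.c / 8 by positivity)
  obtain ⟨e₄, he₄, h4⟩ := exists_small 2 hX.c₅_pos
  refine ⟨min (min b 1) (min (min e₁ e₂) (min e₃ e₄)), by positivity,
    (min_le_left _ _).trans (min_le_left _ _), fun h hh hhe => ?_⟩
  have a0 := hhe.trans (min_le_left _ _)
  have a1 := hhe.trans (min_le_right _ _)
  have a2 := a1.trans (min_le_left _ _)
  have a3 := a1.trans (min_le_right _ _)
  obtain ⟨b1, b2, b3⟩ := h1 h hh (a2.trans (min_le_left _ _))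
  have b4 := h4 h hh (a3.trans (min_le_right _ _))
  exact ⟨hh, a0.trans (min_le_right _ _), a0.trans (min_le_left _ _), b1, b2, b3,
    h2 h hh (a2.trans (min_le_right _ _)), h3 h hh (a3.trans (min_le_left _ _)), by linarith⟩

lemma rinv_pow_le {s : ℕ} {r h : ℝ} (hr : 0 < r) (hh : 0 < h) (hp : h ≤ r ^ (8 * s)) :
    r⁻¹ ^ s ≤ h ^ (-(1 / 8) : ℝ) := by
  have h1 : h ^ (1 / 8 : ℝ) ≤ r ^ s := by
    calc h ^ (1 / 8 : ℝ) ≤ (r ^ (8 * s)) ^ (1 / 8 : ℝ) := Real.rpow_le_rpow hh.le hp (by norm_num)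
      _ = r ^ s := by
        rw [mul_comm, pow_mul, ← Real.rpow_natCast (r ^ s) 8, ← Real.rpow_mul (by positivity)]
        norm_num
  rw [inv_pow, Real.rpow_neg hh.le]
  exact inv_anti₀ (by positivity) h1

section

variable {X : Exps} {m : ℕ} (hX : X.OK m)
include hX

lemma e_half : X.c₁ / X.c₀ = X.e / 2 := by rw [hX.e_c₁]; ring

/-- the size of the increments -/
lemma K_size {K b h : ℝ} (hS : Sma X K b h) :
    K * h ^ (1 / 2 - X.c₁ / X.c₀) ≤ h ^ (1 / 2 - X.e) := by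
  have hh := hS.pos
  have h1 : h ^ (1 / 2 - X.c₁ / X.c₀) = h ^ (X.e / 2) * h ^ (1 / 2 - X.e) := by
    rw [← Real.rpow_add hh, e_half hX]; congr 1; ring
  rw [h1, ← mul_assoc]
  calc K * h ^ (X.e / 2) * h ^ (1 / 2 - X.e) ≤ 1 * h ^ (1 / 2 - X.e) :=
        mul_le_mul_of_nonneg_right hS.s1 (by positivity)
    _ = _ := one_mul _

/-- the norms stay bounded -/
lemma norm_step {K b h h' r ε : ℝ} {s : ℕ} (hS : Sma X K b h) (hr : 0 < r) (hK : 0 ≤ K)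
    (hp : h ≤ r ^ (8 * s)) (h'0 : 0 ≤ h') (hh' : h' ≤ h ^ (1 + X.c)) :
    (ε - 2 * h ^ (1 / 8 : ℝ)) + r⁻¹ ^ s * (K * h ^ (1 / 2 - X.c₁ / X.c₀))
      ≤ ε - 2 * h' ^ (1 / 8 : ℝ) := by
  have hh := hS.pos
  have h1 := rinv_pow_le hr hh hp
  have h2 := K_size hX hS
  have h3 : r⁻¹ ^ s * (K * h ^ (1 / 2 - X.c₁ / X.c₀)) ≤ h ^ (1 / 8 : ℝ) := by
    calc r⁻¹ ^ s * (K * h ^ (1 / 2 - X.c₁ / X.c₀))
        ≤ h ^ (-(1 / 8) : ℝ) * h ^ (1 / 2 - X.e) :=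
          mul_le_mul h1 h2 (by positivity) (by positivity)
      _ = h ^ (3 / 8 - X.e) := by rw [← Real.rpow_add hh]; congr 1; ring
      _ ≤ h ^ (1 / 8 : ℝ) := by
          refine Real.rpow_le_rpow_of_exponent_ge hh hS.le_one ?_
          have := hX.e_le; have := hX.c_le; linarith
  have h4 : h' ^ (1 / 8 : ℝ) ≤ h ^ (1 / 8 : ℝ) / 2 := by
    calc h' ^ (1 / 8 : ℝ) ≤ (h ^ (1 + X.c)) ^ (1 / 8 : ℝ) :=
          Real.rpow_le_rpow h'0 hh' (by norm_num)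
      _ = h ^ (X.c / 8) * h ^ (1 / 8 : ℝ) := by
          rw [← Real.rpow_mul hh.le, ← Real.rpow_add hh]; congr 1; ring
      _ ≤ 1 / 2 * h ^ (1 / 8 : ℝ) := by
          refine mul_le_mul_of_nonneg_right ?_ (by positivity)
          have := hS.s2; linarith
      _ = _ := by ring
  linarith

/-- the heights stay below the power of the radius -/
lemma pow_step {K b h h' r r' : ℝ} (hS : Sma X K b h) (hr : 0 < r)
    (hp : h ≤ r ^ (8 * sW m)) (hh' : h' ≤ h ^ (1 + X.c)) (hr' : r * h ^ X.c₅ ≤ r') :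
    h' ≤ r' ^ (8 * sW m) := by
  have hh := hS.pos
  have h1 : h ^ X.c ≤ (h ^ X.c₅) ^ (8 * sW m) := by
    rw [← Real.rpow_natCast, ← Real.rpow_mul hh.le]
    refine Real.rpow_le_rpow_of_exponent_ge hh hS.le_one ?_
    have := hX.pow
    push_cast
    linarith
  calc h' ≤ h ^ (1 + X.c) := hh'
    _ = h * h ^ X.c := by rw [Real.rpow_add hh, Real.rpow_one]
    _ ≤ r ^ (8 * sW m) * (h ^ X.c₅) ^ (8 * sW m) := by gcongr
    _ = (r * h ^ X.c₅) ^ (8 * sW m) := (mul_pow _ _ _).symm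
    _ ≤ r' ^ (8 * sW m) := by gcongr

end

end Vale.Agent.P214.WSEQ
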