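import Vale.Agent.P214.STR.Scale
import Vale.Agent.P214.STR.Props
import Vale.Agent.P214.COORD.Area

/-!
# P214, WINDOWS: test bumps, mass of a bump against the area of a graph
-/

open Set Filter Topology MeasureTheory Metric Matrix
open scoped RealInnerProductSpace ENNReal ContDiff

namespace Vale.Agent.P214.WSEQ

open WIN STR

noncomputable section

variable {m n : ℕ}

lemma one_le_det_one_add (B : Matrix (Fin m) (Fin n) ℝ) : 1 ≤ (1 + B * Bᵀ).det := by
  have hA : (1 + B * Bᵀ).IsHermitian := by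
    refine Matrix.isHermitian_one.add ?_
    have := Matrix.isHermitian_mul_conjTranspose_self B
    simpa using this
  rw [hA.det_eq_prod_eigenvalues]
  have h1 : ∀ i, 1 ≤ hA.eigenvalues i := by
    intro i
    rw [hA.eigenvalues_eq i]
    set v : Fin m → ℝ := ⇑(hA.eigenvectorBasis i) with hv
    have h2 : v ⬝ᵥ v = 1 := by
      have h3 := hA.eigenvectorBasis.orthonormal.1 i
      have h4 : ‖hA.eigenvectorBasis i‖ ^ 2 = 1 := by rw [h3, one_pow]
      rw [EuclideanSpace.norm_sq_eq] at h4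
      simp only [dotProduct, hv]
      rw [← h4]
      refine Finset.sum_congr rfl fun j _ => ?_
      rw [Real.norm_eq_abs, sq_abs, sq]
    have h5 : (v ⬝ᵥ (1 + B * Bᵀ) *ᵥ v) = 1 + (Bᵀ *ᵥ v) ⬝ᵥ (Bᵀ *ᵥ v) := by
      rw [add_mulVec, one_mulVec, dotProduct_add, h2, ← mulVec_mulVec, dotProduct_mulVec,
        ← mulVec_transpose]
    have h6 : 0 ≤ (Bᵀ *ᵥ v) ⬝ᵥ (Bᵀ *ᵥ v) := by
      simp only [dotProduct]
      exact Finset.sum_nonneg fun _ _ => mul_self_nonneg _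
    have h7 : RCLike.re (star v ⬝ᵥ (1 + B * Bᵀ) *ᵥ v) = v ⬝ᵥ (1 + B * Bᵀ) *ᵥ v := by
      simp
    rw [h7, h5]
    linarith
  calc (1:ℝ) = ∏ i : Fin m, (1:ℝ) := by simp
    _ ≤ ∏ i, hA.eigenvalues i := Finset.prod_le_prod (fun _ _ => zero_le_one) fun i _ => h1 i
    _ = _ := by simp

/-- the area element of a graph is at least one -/
lemma one_le_sqrt_det_gm (u : Fin n → REF.E m → ℝ) (x : REF.E m) : 1 ≤ √(REF.gm u x).det := by
  rw [Real.one_le_sqrt]
  have h1 : REF.gm u x = 1 + (Matrix.of fun i b => REF.pd i (u b) x) *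
      (Matrix.of fun i b => REF.pd i (u b) x)ᵀ := by
    unfold REF.gm
    congr 1
  rw [h1]
  exact one_le_det_one_add _

/-! ### bumps -/

/-- the unit bump -/
def tb (m : ℕ) : ContDiffBump (0 : REF.E m) := ⟨1 / 2, 1, by norm_num, by norm_num⟩

/-- the bump of radius `ρ` about `x₀` -/
def eta (x₀ : REF.E m) (ρ : ℝ) (x : REF.E m) : ℝ := tb m (ρ⁻¹ • (x - x₀))

lemma eta_nonneg (x₀ : REF.E m) (ρ : ℝ) (x : REF.E m) : 0 ≤ eta x₀ ρ x := (tb m).nonneg

lemma eta_le_one (x₀ : REF.E m) (ρ : ℝ) (x : REF.E m) : eta x₀ ρ x ≤ 1 := (tb m).le_one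

lemma abs_eta_le (x₀ : REF.E m) (ρ : ℝ) (x : REF.E m) : |eta x₀ ρ x| ≤ 1 := by
  rw [abs_of_nonneg (eta_nonneg _ _ _)]; exact eta_le_one _ _ _

lemma eta_zero {x₀ : REF.E m} {ρ : ℝ} (hρ : 0 < ρ) {x : REF.E m} (hx : ρ ≤ ‖x - x₀‖) :
    eta x₀ ρ x = 0 := by
  refine (tb m).zero_of_le_dist ?_
  rw [dist_zero_right, norm_smul, Real.norm_of_nonneg (by positivity)]
  show (1:ℝ) ≤ _
  rw [inv_mul_eq_div, one_le_div hρ]
  exact hx

lemma eta_one {x₀ : REF.E m} {ρ : ℝ} (hρ : 0 < ρ) {x : REF.E m} (hx : ‖x - x₀‖ ≤ ρ / 2) :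
    eta x₀ ρ x = 1 := by
  refine (tb m).one_of_mem_closedBall ?_
  rw [mem_closedBall_zero_iff, norm_smul, Real.norm_of_nonneg (by positivity)]
  show _ ≤ (1:ℝ) / 2
  rw [inv_mul_eq_div, div_le_iff₀ hρ]
  linarith

lemma contDiff_eta (x₀ : REF.E m) (ρ : ℝ) : ContDiff ℝ ∞ (eta x₀ ρ) :=
  (tb m).contDiff.comp ((contDiff_id.sub contDiff_const).const_smul _)

lemma continuous_eta (x₀ : REF.E m) (ρ : ℝ) : Continuous (eta x₀ ρ) :=
  (contDiff_eta x₀ ρ).continuous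

lemma exists_tb_bound (m K : ℕ) : ∃ C : ℝ, 1 ≤ C ∧ ∀ k ≤ K, ∀ x : REF.E m,
    ‖iteratedFDeriv ℝ k (tb m) x‖ ≤ C := by
  have h1 : ∀ k : ℕ, ∃ C : ℝ, ∀ x : REF.E m, ‖iteratedFDeriv ℝ k (tb m) x‖ ≤ C := by
    intro k
    have hc : Continuous (iteratedFDeriv ℝ k (tb m)) :=
      ((tb m).contDiff (n := (⊤ : ℕ∞))).continuous_iteratedFDeriv (by exact_mod_cast le_top)
    have hs : HasCompactSupport (iteratedFDeriv ℝ k (tb m)) :=
      (tb m).hasCompactSupport.iteratedFDeriv k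
    obtain ⟨C, hC⟩ := hs.exists_bound_of_continuous hc
    exact ⟨C, hC⟩
  choose C hC using h1
  refine ⟨1 + ∑ k ∈ Finset.range (K + 1), |C k|, ?_, fun k hk x => ?_⟩
  · have : 0 ≤ ∑ k ∈ Finset.range (K + 1), |C k| := Finset.sum_nonneg fun _ _ => abs_nonneg _
    linarith
  · have h2 : |C k| ≤ ∑ k ∈ Finset.range (K + 1), |C k| :=
      Finset.single_le_sum (f := fun k => |C k|) (fun _ _ => abs_nonneg _)
        (Finset.mem_range.2 (by omega))
    calc _ ≤ C k := hC k x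
      _ ≤ |C k| := le_abs_self _
      _ ≤ _ := by linarith

/-- derivatives of the bump -/
lemma exists_eta_bound (m K : ℕ) : ∃ C : ℝ, 1 ≤ C ∧ ∀ k ≤ K, ∀ (x₀ : REF.E m) (ρ : ℝ), 0 < ρ →
    ∀ x, ‖iteratedFDeriv ℝ k (eta x₀ ρ) x‖ ≤ C * ρ⁻¹ ^ k := by
  obtain ⟨C, hC1, hC⟩ := exists_tb_bound m K
  refine ⟨C, hC1, fun k hk x₀ ρ hρ x => ?_⟩
  have h1 : eta x₀ ρ = fun x => (fun z => tb m (ρ⁻¹ • z)) (x - x₀) := rfl
  have hk' : ContDiff ℝ k (tb m) := (tb m).contDiff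
  have h3 : iteratedFDeriv ℝ k (eta x₀ ρ) x
      = iteratedFDeriv ℝ k (fun z => tb m (ρ⁻¹ • z)) (x - x₀) :=
    iteratedFDeriv_comp_sub (𝕜 := ℝ) (f := fun z => tb m (ρ⁻¹ • z)) k x₀ x
  rw [h3]
  have h2 := congrFun (iteratedFDeriv_comp_const_smul (𝕜 := ℝ) (i := k) (f := tb m) ρ⁻¹ hk') (x - x₀)
  rw [h2]
  simp only [norm_smul, norm_pow, norm_inv, Real.norm_of_nonneg hρ.le]
  rw [mul_comm]
  gcongr
  exact hC k hk _

/-- the vector valued test function with one component -/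
def tv (a : Fin n) (x₀ : REF.E m) (ρ : ℝ) (b : Fin n) (x : REF.E m) : ℝ :=
  if b = a then eta x₀ ρ x else 0

lemma tstR_tv {K : ℕ} {C : ℝ} (hC : ∀ k ≤ K, ∀ (x₀ : REF.E m) (ρ : ℝ), 0 < ρ →
    ∀ x, ‖iteratedFDeriv ℝ k (eta x₀ ρ) x‖ ≤ C * ρ⁻¹ ^ k) (hC0 : 0 ≤ C) (a : Fin n)
    {x₀ : REF.E m} {ρ r ρ' : ℝ} (hρ : 0 < ρ) (hρr : ρ ≤ r) (hx₀ : ‖x₀‖ + ρ ≤ ρ') :
    TstR K r ρ' (C * (r / ρ) ^ K) (tv a x₀ ρ) := by
  have hr : 0 < r := hρ.trans_le hρr
  refine ⟨fun b => ?_, fun b x hx => ?_, fun b k hk x => ?_⟩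
  · unfold tv
    split_ifs
    · exact contDiff_eta x₀ ρ
    · exact contDiff_const
  · unfold tv
    split_ifs with h
    · refine eta_zero hρ ?_
      have := norm_sub_norm_le x x₀
      linarith
    · rfl
  · have h0 : 0 ≤ C * (r / ρ) ^ K * r⁻¹ ^ k := by positivity
    unfold tv
    split_ifs with h
    · refine (hC k hk x₀ ρ hρ x).trans ?_
      have h1 : ρ⁻¹ ^ k = (r / ρ) ^ k * r⁻¹ ^ k := by
        rw [← mul_pow]; congr 1; field_simp
      rw [h1, ← mul_assoc]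
      have h2 : (r / ρ) ^ k ≤ (r / ρ) ^ K := by
        refine pow_le_pow_right₀ ?_ hk
        rw [one_le_div hρ]; exact hρr
      gcongr
    · have h3 : iteratedFDeriv ℝ k (fun _ : REF.E m => (0:ℝ)) x = 0 := by
        have := iteratedFDeriv_fun_zero (𝕜 := ℝ) (E := REF.E m) (F := ℝ) (n := k)
        exact congrFun this x
      rw [h3, norm_zero]
      exact h0

/-- lower bound for the integral of a bump -/
lemma exists_integral_eta (m : ℕ) : ∃ c : ℝ, 0 < c ∧ ∀ (x₀ : REF.E m) (ρ : ℝ), 0 < ρ →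
    c * ρ ^ m ≤ ∫ x, eta x₀ ρ x ∂(μH[m] : Measure (REF.E m)) := by
  have hc := COORD.hc_pos m
  refine ⟨(COORD.hc m : ℝ) * ((volume : Measure (REF.E m)).real (ball 0 1) * (2⁻¹) ^ m), ?_,
    fun x₀ ρ hρ => ?_⟩
  · have h1 : 0 < (volume : Measure (REF.E m)).real (ball 0 1) :=
      ENNReal.toReal_pos (measure_ball_pos _ _ one_pos).ne' measure_ball_lt_top.ne
    positivity
  · rw [COORD.hausdorff_eq, integral_smul_nnreal_measure, NNReal.smul_def, smul_eq_mul, mul_assoc]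
    refine mul_le_mul_of_nonneg_left ?_ (NNReal.coe_nonneg _)
    have h1 : ∫ x, (ball x₀ (ρ / 2)).indicator (fun _ => (1:ℝ)) x ∂(volume : Measure (REF.E m))
        ≤ ∫ x, eta x₀ ρ x ∂(volume : Measure (REF.E m)) := by
      refine integral_mono ((integrable_indicator_iff measurableSet_ball).2
        (integrableOn_const measure_ball_lt_top.ne)) ?_ fun x => ?_
      · refine (continuous_eta x₀ ρ).integrable_of_hasCompactSupport ?_
        refine HasCompactSupport.intro (isCompact_closedBall x₀ ρ) fun x hx => ?_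
        refine eta_zero hρ ?_
        rw [mem_closedBall, dist_eq_norm, not_le] at hx
        exact hx.le
      · by_cases hx : x ∈ ball x₀ (ρ / 2)
        · rw [indicator_of_mem hx]
          rw [mem_ball, dist_eq_norm] at hx
          exact (eta_one hρ hx.le).ge
        · rw [indicator_of_notMem hx]; exact eta_nonneg _ _ _
    refine le_trans (le_of_eq ?_) h1
    rw [integral_indicator measurableSet_ball, setIntegral_const, smul_eq_mul, mul_one]
    have h2 : (volume : Measure (REF.E m)) (ball x₀ (ρ / 2))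
        = ENNReal.ofReal ((ρ / 2) ^ Module.finrank ℝ (REF.E m)) * volume (ball (0 : REF.E m) 1) :=
      Measure.addHaar_ball_of_pos _ _ (by positivity)
    show _ = (volume (ball x₀ (ρ / 2))).toReal
    rw [h2, ENNReal.toReal_mul, ENNReal.toReal_ofReal (by positivity)]
    have h3 : Module.finrank ℝ (REF.E m) = m := by simp [REF.E]
    rw [h3, Measure.real, div_pow, inv_pow]
    ring

end

end Vale.Agent.P214.WSEQ
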